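import Vale.Agent.N144.Sf.Fld

/-!
From the bound at all scales to the scaling limit of the spin field in a domain.
-/

set_option linter.all false

noncomputable section

namespace Vale.Agent.N144.Sf

open MeasureTheory Filter Topology Metric TopologicalSpace Vale.Agent.P144 Vale.Agent.P144Z
open Vale.Agent.P144W Vale.Agent.P144F58 Vale.Agent.P144M13 Vale.Agent.P153D
open scoped Nat

variable {J : ℝ} {K D : Set ℂ} {n : ℕ} {b : Option (ℝ → Config)} {C : Pts → ℝ}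

theorem test_abs {f : ℂ → ℝ} (hf : Test f) : Test fun x => |f x| := by
  obtain ⟨hm, ⟨B, hB⟩, hs⟩ := hf
  exact ⟨hm.abs, ⟨B, fun x => by simpa using hB x⟩, hs.subset fun x hx h => hx (by simp [h])⟩

theorem sup_abs {f : ℂ → ℝ} (hf : Function.support f ⊆ K) :
    Function.support (fun x => |f x|) ⊆ K := fun x hx => hf fun h => hx (by simp [h])

theorem inside (hD : Bornology.IsBounded D) (hK : IsCompact K) (ho : IsOpen D) (hKD : K ⊆ D) :
    ∀ᶠ a in 𝓝[>] (0 : ℝ), 0 < a ∧ ∀ x ∈ K, fl a x ∈ disc D a := by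
  obtain ⟨d, hd, hb⟩ := deep hK ho hKD
  filter_upwards [mem_nhdsWithin_of_mem_nhds (Iic_mem_nhds (show 0 < d / 4 by positivity)),
    self_mem_nhdsWithin] with a h1 ha
  have h1 : a ≤ d / 4 := h1
  have ha : 0 < a := ha
  refine ⟨ha, fun x hx => (mem_disc hD ha _).2 (hb x hx ?_)⟩
  have := near_zd ha x (v := fl a x) (r := 0) (by simp [zd])
  rw [mem_ball, dist_eq_norm]
  push_cast at this
  linarith

/-- the limit is dominated by the plus state -/
theorem lim_le (hJ : 0 < J) (hD : Bornology.IsBounded D) (hK : IsCompact K) (ho : IsOpen D)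
    (hKD : K ⊆ D) (h0 : ∀ p, Good D p → p.m = 0 → Lim (crit J D b) p (C p)) (hn : 0 < n)
    {f : Fin n → ℂ → ℝ} (hf : ∀ i, Test (f i) ∧ Function.support (f i) ⊆ K) {A : ℝ}
    (hA : ∀ᶠ a in 𝓝[>] (0 : ℝ),
      crit J D (some fun _ => bcp) a (fun σ => ∏ i, smear a (fun x => |f i x|) σ) ≤ A) :
    Integrable (fun x : Fin n → ℂ => (∏ i, f i (x i)) * C ⟨n, 0, x, ![], ![]⟩) ∧
      ∫ x : Fin n → ℂ, |(∏ i, f i (x i)) * C ⟨n, 0, x, ![], ![]⟩| ≤ A := by
  obtain ⟨μ, hμ⟩ := exists_rp J 0 (fun _ => 0) (Kc / J) D b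
  obtain ⟨ν, hν⟩ := exists_rp J 0 (fun _ => 0) (Kc / J) D (some fun _ => bcp)
  have F1 := fd_of hK ho hKD hμ (sep_zero hJ hD _) (mac_zero hJ hD hK ho hKD _)
  have F2 := fd_of hK ho hKD hν (sep_zero hJ hD _) (mac_zero hJ hD hK ho hKD _)
  refine Cv.fatou (𝓝[>] (0 : ℝ)) (fun a x => (∏ i, f i (x i)) * cr μ (pk K) a x) _ A ?_ ?_
  · filter_upwards [hA, inside hD hK ho hKD] with a h1 ⟨ha, h2⟩
    have i1 := (fub_test F1 ha fun i => (hf i).1).1
    obtain ⟨i2, e2⟩ := fub_test F2 ha (f := fun i x => |f i x|) fun i => test_abs (hf i).1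
    rw [mom_eq hν fun i => sup_abs (hf i).2] at e2
    refine ⟨i1, le_trans (integral_mono i1.abs i2 fun x => ?_) (e2.symm.trans_le h1)⟩
    show |_ * _| ≤ _ * _
    rw [abs_mul, Finset.abs_prod]
    refine mul_le_mul_of_nonneg_left ?_ (Finset.prod_nonneg fun _ _ => abs_nonneg _)
    by_cases hx : ∀ i, x i ∈ K
    · rw [cr_in hμ a hx, cr_in hν a hx, cs_eq, cs_eq]
      exact dom_plus hJ _ (fun i => h2 _ (hx i)) (Real.rpow_nonneg ha.le _)
    · rw [cr_out a hx, cr_out a hx, abs_zero]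
  · filter_upwards [Cv.ae_inj n] with x hx
    by_cases hz : ∏ i, f i (x i) = 0
    · simp only [hz, zero_mul]
      exact tendsto_const_nhds
    have hk : ∀ i, x i ∈ K := fun i =>
      (hf i).2 (Finset.prod_ne_zero_iff.1 hz i (Finset.mem_univ i))
    simp only [cr_in hμ _ hk]
    exact Tendsto.const_mul _ (h0 _ (good_of hn hx (fun i => hKD (hk i)) _ _) rfl)

theorem plus_bd (hJ : 0 < J) (hD : Bornology.IsBounded D) (hK : IsCompact K) (ho : IsOpen D)
    (hKD : K ⊆ D) {f : Fin n → ℂ → ℝ} (hf : ∀ i, Test (f i) ∧ Function.support (f i) ⊆ K) :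
    ∃ A : ℝ, ∀ a > (0 : ℝ), crit J D b a (fun σ => ∏ i, smear a (f i) σ) ≤ A := by
  obtain ⟨ν, hν⟩ := exists_rp J 0 (fun _ => 0) (Kc / J) D b
  obtain ⟨A, hA⟩ := bd_test (fd_of hK ho hKD hν (sep_zero hJ hD _) (mac_zero hJ hD hK ho hKD _))
    fun i => (hf i).1
  refine ⟨A, fun a ha => ?_⟩
  have := hA a ha
  rw [mom_eq hν fun i => (hf i).2] at this
  exact (le_abs_self _).trans this

theorem plus_exp (hJ : 0 < J) (hD : Bornology.IsBounded D) (hK : IsCompact K) (ho : IsOpen D)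
    (hKD : K ⊆ D) {g : ℂ → ℝ} (hg : Test g ∧ Function.support g ⊆ K) (g0 : ∀ x, 0 ≤ g x) {t : ℝ}
    (ht : 0 < t) : ∃ B : ℝ, ∀ n : ℕ, ∀ᶠ a in 𝓝[>] (0 : ℝ),
      crit J D (some fun _ => bcp) a (fun σ => ∏ _i : Fin n, smear a g σ) ≤ B * (n ! / t ^ n) := by
  obtain ⟨A1, h1⟩ := plus_bd (b := some fun _ => bcp) hJ hD hK ho hKD (f := fun _ : Fin 1 => g)
    fun _ => hg
  obtain ⟨A2, h2⟩ := plus_bd (b := some fun _ => bcp) hJ hD hK ho hKD (f := fun _ : Fin 2 => g)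
    fun _ => hg
  refine ⟨Real.exp (t * A1 + t ^ 2 * A2 / 2), fun n => ?_⟩
  filter_upwards [inside hD hK ho hKD] with a ⟨ha, h3⟩
  have h4 := plus_mom hJ (disc D a) (c := C13.cf a g) (fun i => integral_nonneg fun x =>
    Set.indicator_nonneg (fun y _ => mul_nonneg (g0 y) (Real.rpow_nonneg ha.le _)) x)
    (C13.smear_eq hg.1 fun x hx => h3 x (hg.2 hx)) ht.le n
  have b1 := h1 a ha
  have b2 := h2 a ha
  simp only [Finset.prod_const, Finset.card_univ, Fintype.card_fin, pow_one] at b1 b2 ⊢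
  have p : (0 : ℝ) < t ^ n / n ! := by positivity
  rw [← inv_div (t ^ n), ← div_eq_mul_inv, le_div_iff₀ p, mul_comm]
  refine h4.trans (Real.exp_le_exp.2 (add_le_add (mul_le_mul_of_nonneg_left b1 ht.le) ?_))
  exact div_le_div_of_nonneg_right (mul_le_mul_of_nonneg_left b2 (sq_nonneg t)) zero_le_two

theorem lim_int (hJ : 0 < J) (hD : Bornology.IsBounded D) (hK : IsCompact K) (ho : IsOpen D)
    (hKD : K ⊆ D) (h0 : ∀ p, Good D p → p.m = 0 → Lim (crit J D b) p (C p)) (hn : 0 < n)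
    {f : Fin n → ℂ → ℝ} (hf : ∀ i, Test (f i) ∧ Function.support (f i) ⊆ K) :
    Integrable (fun x : Fin n → ℂ => (∏ i, f i (x i)) * C ⟨n, 0, x, ![], ![]⟩) := by
  obtain ⟨A, hA⟩ := plus_bd (b := some fun _ => bcp) hJ hD hK ho hKD (f := fun i x => |f i x|)
    fun i => ⟨test_abs (hf i).1, sup_abs (hf i).2⟩
  exact (lim_le hJ hD hK ho hKD h0 hn hf (eventually_mem_nhdsWithin.mono hA)).1

theorem growth (hJ : 0 < J) (hD : Bornology.IsBounded D) (hK : IsCompact K) (ho : IsOpen D)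
    (hKD : K ⊆ D) (h0 : ∀ p, Good D p → p.m = 0 → Lim (crit J D b) p (C p)) {k : ℕ}
    {f : Fin k → ℂ → ℝ} (hf : ∀ i, Test (f i) ∧ Function.support (f i) ⊆ K) (t : Fin k → ℝ)
    {Z : ℝ} (hZ : 0 < Z) :
    Tendsto (fun q : ℕ => (∑ i : Fin (2 * q) → Fin k, (∏ j, t (i j)) * (Z ^ (2 * q) *
      ∫ x : Fin (2 * q) → ℂ, (∏ j, f (i j) (x j)) * C ⟨2 * q, 0, x, ![], ![]⟩)) / (2 * q)!)
      atTop (𝓝 0) := by
  have hg : Test (fun x => ∑ i, t i * f i x) ∧ Function.support (fun x => ∑ i, t i * f i x) ⊆ K :=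
    ⟨C13.test_sum (fun i => (hf i).1) t, fun x hx => by
      obtain ⟨i, -, hi⟩ := Finset.exists_ne_zero_of_sum_ne_zero hx
      exact (hf i).2 (right_ne_zero_of_mul hi)⟩
  obtain ⟨B, hB⟩ := plus_exp hJ hD hK ho hKD ⟨test_abs hg.1, sup_abs hg.2⟩ (fun x => abs_nonneg _)
    (show 0 < 2 * Z by positivity)
  have lim : Tendsto (fun q : ℕ => B * (1 / 4 : ℝ) ^ q) atTop (𝓝 0) := by
    simpa using (tendsto_pow_atTop_nhds_zero_of_lt_one (r := (1 / 4 : ℝ)) (by norm_num)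
      (by norm_num)).const_mul B
  refine squeeze_zero_norm' ?_ lim
  filter_upwards [eventually_gt_atTop 0] with q hq
  have h1 := (lim_le hJ hD hK ho hKD h0 (show 0 < 2 * q by omega) (fun _ => hg) (hB (2 * q))).2
  have e : ∑ i : Fin (2 * q) → Fin k, (∏ j, t (i j)) * (Z ^ (2 * q) *
      ∫ x : Fin (2 * q) → ℂ, (∏ j, f (i j) (x j)) * C ⟨2 * q, 0, x, ![], ![]⟩) = Z ^ (2 * q) *
      ∫ x : Fin (2 * q) → ℂ, (∏ j, ∑ i, t i * f i (x j)) * C ⟨2 * q, 0, x, ![], ![]⟩ := by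
    simp only [mul_left_comm _ (Z ^ (2 * q))]
    rw [← Finset.mul_sum]
    congr 1
    simp only [← integral_const_mul]
    rw [← integral_finsetSum _ fun (i : Fin (2 * q) → Fin k) _ =>
      (lim_int hJ hD hK ho hKD h0 (by omega) fun j => hf (i j)).const_mul _]
    congr 1
    funext x
    rw [Finset.prod_univ_sum, Fintype.piFinset_univ, Finset.sum_mul]
    refine Finset.sum_congr rfl fun i _ => ?_
    rw [Finset.prod_mul_distrib, mul_assoc]
  have p : (0 : ℝ) < (2 * q)! := by positivity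
  rw [e, Real.norm_eq_abs, abs_div, abs_mul, abs_of_pos p, abs_of_pos (pow_pos hZ _),
    div_le_iff₀ p]
  refine (mul_le_mul_of_nonneg_left ((abs_integral_le_integral_abs).trans h1)
    (pow_pos hZ _).le).trans (le_of_eq ?_)
  rw [mul_pow 2 Z, pow_mul 2, one_div, inv_pow]
  have := (pow_pos hZ (2 * q)).ne'
  field_simp
  norm_num

theorem mom_lim {lam β Z Zε : ℝ} {V : Finset Site → ℝ} (hJ : 0 < J) (hD : Bornology.IsBounded D)
    (hK : IsCompact K) (ho : IsOpen D) (hKD : K ⊆ D)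
    (hL : LocDiff D (crit J D b) (inDom J lam V β D b) Z Zε) (hS : SepD D (inDom J lam V β D b))
    (h0 : ∀ p, Good D p → p.m = 0 → Lim (crit J D b) p (C p)) (hn : 0 < n)
    {f : Fin n → ℂ → ℝ} (hf : ∀ i, Test (f i) ∧ Function.support (f i) ⊆ K) :
    Tendsto (fun a => inDom J lam V β D b a fun σ => ∏ i, smear a (f i) σ) (𝓝[>] 0)
      (𝓝 (Z ^ n * ∫ x : Fin n → ℂ, (∏ i, f i (x i)) * C ⟨n, 0, x, ![], ![]⟩)) := by
  classical
  obtain ⟨μ, hμ⟩ := exists_rp J lam V β D b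
  have hM := mac_diff hK hKD (mac_zero hJ hD hK ho hKD b) hL
  have e : ∀ x : Fin n → ℂ, (∏ i, f i (x i)) * (if ∀ i, x i ∈ K then Z ^ n * C ⟨n, 0, x, ![], ![]⟩
      else 0) = Z ^ n * ((∏ i, f i (x i)) * C ⟨n, 0, x, ![], ![]⟩) := fun x => by
    by_cases hz : ∏ i, f i (x i) = 0
    · simp only [hz, zero_mul, mul_zero]
    · rw [if_pos fun i => (hf i).2 (Finset.prod_ne_zero_iff.1 hz i (Finset.mem_univ i)),
        mul_left_comm]
  have t := conv_test (L := fun x => if ∀ i, x i ∈ K then Z ^ n * C ⟨n, 0, x, ![], ![]⟩ else 0)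
    (fd_of hK ho hKD hμ hS hM) (mac_of hμ hM hn) (fun x hx => ?_) (fun i => (hf i).1) (by
      simp only [e]
      exact (lim_int hJ hD hK ho hKD h0 hn hf).const_mul _)
  · simpa only [e, integral_const_mul, mom_eq hμ fun i => (hf i).2] using t
  · by_cases hk : ∀ i, x i ∈ K
    · have hg := good_of hn hx (fun i => hKD (hk i)) ![] ![]
      simp only [cr_in hμ _ hk, if_pos hk]
      exact lim_diff hL hg (h0 _ hg rfl)
    · simp only [cr_out _ hk, if_neg hk]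
      exact tendsto_const_nhds

theorem exists_K {f : Fin n → ℂ → ℝ} (hf : ∀ i, Test (f i) ∧ tsupport (f i) ⊆ D) :
    ∃ K, IsCompact K ∧ K ⊆ D ∧ ∀ i, Test (f i) ∧ Function.support (f i) ⊆ K :=
  ⟨⋃ i, tsupport (f i), isCompact_iUnion fun i =>
    Metric.isCompact_of_isClosed_isBounded (isClosed_tsupport _) (hf i).1.2.2.closure,
    Set.iUnion_subset fun i => (hf i).2, fun i => ⟨(hf i).1,
      (subset_tsupport _).trans (Set.subset_iUnion (fun i => tsupport (f i)) i)⟩⟩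

/-- The limit of the field, for every boundary condition. -/
theorem field_of {lam β Z Zε : ℝ} {V : Finset Site → ℝ} {D : Opens ℂ} (hJ : 0 < J)
    (hD : Bornology.IsBounded (D : Set ℂ)) (hZ : 0 < Z)
    (hL : LocDiff D (crit J D b) (inDom J lam V β D b) Z Zε) (hS : SepD D (inDom J lam V β D b))
    (h0 : ∀ p, Good D p → p.m = 0 → Lim (crit J D b) p (C p)) :
    FieldLim D (inDom J lam V β D b) Z C := by
  have key : ∀ n > 0, ∀ f : Fin n → ℂ → ℝ, (∀ i, Test (f i) ∧ tsupport (f i) ⊆ D) →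
      Integrable (fun x : Fin n → ℂ => (∏ i, f i (x i)) * C ⟨n, 0, x, ![], ![]⟩) ∧
      Tendsto (fun a => inDom J lam V β D b a fun σ => ∏ i, smear a (f i) σ) (𝓝[>] 0)
        (𝓝 (Z ^ n * ∫ x : Fin n → ℂ, (∏ i, f i (x i)) * C ⟨n, 0, x, ![], ![]⟩)) := by
    intro n hn f hf
    obtain ⟨K, k1, k2, k3⟩ := exists_K hf
    exact ⟨lim_int hJ hD k1 D.isOpen k2 h0 hn k3, mom_lim hJ hD k1 D.isOpen k2 hL hS h0 hn k3⟩
  have hf : ∀ f : Te D, Test f ∧ tsupport f ⊆ D := fun f => ⟨test f, f.tsupport_subset⟩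
  choose X hX using exists_T D
  choose ρ hρ using fun a => gibbs_law J lam V β (b.map fun η => η a) (disc D a) (X a)
  obtain ⟨P, p1, p2, p3⟩ := law_gen (l := 𝓝[>] (0 : ℝ)) ρ (fun n f => if n = 0 then 1 else
    Z ^ n * ∫ x : Fin n → ℂ, (∏ i, f i (x i)) * C ⟨n, 0, x, ![], ![]⟩) (fun a n f => (hρ a _).1)
    (fun n f => by
      rcases n.eq_zero_or_pos with rfl | hn
      · simp
      · simp only [(hρ _ _).2, hX, if_neg hn.ne']
        exact (key n hn _ fun i => hf (f i)).2)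
    fun k f t => by
      obtain ⟨K, k1, k2, k3⟩ := exists_K fun i => hf (f i)
      refine (growth hJ hD k1 D.isOpen k2 h0 k3 (fun i => t i) hZ).congr' ?_
      filter_upwards [eventually_gt_atTop 0] with q hq
      simp only [if_neg (show 2 * q ≠ 0 by omega)]
  refine ⟨key, X, hX, P, ⟨P.2, fun n hn f => ?_⟩,
    fun Q hQ => congrArg Subtype.val (p2 ⟨Q, hQ.1⟩ fun n f => ?_), fun F => ?_⟩
  · simpa only [if_neg hn.ne'] using p1 n f
  · rcases n.eq_zero_or_pos with rfl | hn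
    · have := hQ.1
      simp
    · rw [if_neg hn.ne']
      exact hQ.2 n hn f
  · exact (ProbabilityMeasure.tendsto_iff_forall_integral_tendsto.1 p3 F).congr
      fun a => (hρ a _).2

theorem softStmt : SoftStmt := fun _ hJ _ _ _ _ _ _ _ _ _ hD _ hZ hL hS h0 =>
  field_of hJ hD hZ hL hS h0

end Vale.Agent.N144.Sf
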