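import Vale.Agent.N144.Sf.Rows
import Vale.Agent.P144W.Conv
import Vale.Agent.P144W.Tst

/-!
Convergence of the moments of smeared fields, without positivity of the limit.
-/

set_option linter.all false

noncomputable section

namespace Vale.Agent.N144.Sf

open MeasureTheory Filter Topology Metric Vale.Agent.P144W Vale.Agent.P144W.Cv

variable {Ω : Type} [MeasurableSpace Ω] {μ : Measure Ω} {φ : ℝ → ℂ → Ω → ℝ} {n : ℕ}
  {L : (Fin n → ℂ) → ℝ}

/-- the correlations of separated points are bounded -/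
def Mac (μ : Measure Ω) (φ : ℝ → ℂ → Ω → ℝ) (n : ℕ) : Prop :=
  ∀ s > (0 : ℝ), ∃ M : ℝ, ∀ᶠ a in 𝓝[>] (0 : ℝ), ∀ x : Fin n → ℂ,
    (∀ i j, i ≠ j → s ≤ ‖x i - x j‖) → |cr μ φ a x| ≤ M

theorem aemeas_L (hF : Fd μ φ)
    (hL : ∀ x, Function.Injective x → Tendsto (fun a => cr μ φ a x) (𝓝[>] 0) (𝓝 (L x))) :
    AEStronglyMeasurable L volume := by
  obtain ⟨u, hu, hp⟩ := exists_seq_forall_of_frequently
    (Eventually.frequently (f := 𝓝[>] (0 : ℝ)) (p := fun a => 0 < a) self_mem_nhdsWithin)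
  exact aestronglyMeasurable_of_tendsto_ae atTop
    (fun k => ((fub Ω μ φ hF (u k) (hp k)).2 n).1.aestronglyMeasurable)
    ((ae_inj n).mono fun x hx => (hL x hx).comp hu)

/-- separated points: dominated convergence -/
theorem dct (hF : Fd μ φ) (hM : Mac μ φ n)
    (hL : ∀ x, Function.Injective x → Tendsto (fun a => cr μ φ a x) (𝓝[>] 0) (𝓝 (L x)))
    {R : ℝ} {f : Fin n → ℂ → ℝ} (hf : ∀ i, Tf 0 R (f i)) {δ η : ℝ} (hδ : 0 < δ)
    (hη : 0 < η) :
    Integrable ((Sd n δ).indicator fun x => (∏ i, cut δ η (f i) (x i)) * L x) ∧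
    Tendsto (fun a => ∫ x in Sd n δ, (∏ i, cut δ η (f i) (x i)) * cr μ φ a x) (𝓝[>] 0)
      (𝓝 (∫ x, (Sd n δ).indicator (fun x => (∏ i, cut δ η (f i) (x i)) * L x) x)) := by
  obtain ⟨M, hs⟩ := hM (η * δ) (by positivity)
  have hS := measurableSet_Sd n δ
  have hm : Measurable fun x : Fin n → ℂ => ∏ i, cut δ η (f i) (x i) :=
    measurable_prod fun i => (tf_cut (hf i) δ η).meas
  have hi : Integrable fun x : Fin n → ℂ => |∏ i, cut δ η (f i) (x i)| * M :=
    (Integrable.fintype_prod fun i =>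
      ((fub Ω μ φ hF 1 one_pos).1 0 R _ (tf_cut (hf i) δ η)).2.1).abs.mul_const M
  have hb : ∀ᶠ a in 𝓝[>] (0 : ℝ), ∀ x ∈ Sd n δ,
      ‖(∏ i, cut δ η (f i) (x i)) * cr μ φ a x‖ ≤ |∏ i, cut δ η (f i) (x i)| * M := by
    filter_upwards [hs] with a h1 x hx
    rw [Real.norm_eq_abs, abs_mul]
    by_cases h0 : ∏ i, cut δ η (f i) (x i) = 0
    · simp [h0]
    · have c1 : ∀ i, cut δ η (f i) (x i) ≠ 0 := fun i =>
        Finset.prod_ne_zero_iff.1 h0 i (Finset.mem_univ i)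
      have c2 : ∀ i, Gd δ η (x i) := fun i => by
        by_contra hn
        exact c1 i (if_neg hn)
      exact mul_le_mul_of_nonneg_left (h1 x fun i j e =>
        sep_box hδ (fun h => e (hx h)) (c2 i) (c2 j)) (abs_nonneg _)
  have hl : ∀ x ∈ Sd n δ, Tendsto (fun a => (∏ i, cut δ η (f i) (x i)) * cr μ φ a x) (𝓝[>] 0)
      (𝓝 ((∏ i, cut δ η (f i) (x i)) * L x)) := fun x hx => (hL x (inj_of_Sd hx)).const_mul _
  constructor
  · rw [integrable_indicator_iff hS]
    refine Integrable.mono' hi.integrableOn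
      ((hm.aestronglyMeasurable.mul (aemeas_L hF hL)).restrict) ?_
    filter_upwards [ae_restrict_mem hS] with x hx
    exact le_of_tendsto (hl x hx).norm (hb.mono fun a ha => ha x hx)
  · rw [integral_indicator hS]
    refine tendsto_integral_filter_of_dominated_convergence _ ?_ ?_ hi.integrableOn ?_
    · filter_upwards [self_mem_nhdsWithin] with a ha
      exact (hm.mul ((fub Ω μ φ hF a ha).2 n).1).aestronglyMeasurable
    · filter_upwards [hb] with a ha
      filter_upwards [ae_restrict_mem hS] with x hx using ha x hx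
    · filter_upwards [ae_restrict_mem hS] with x hx using hl x hx

theorem conv (hF : Fd μ φ) (hM : Mac μ φ n)
    (hL : ∀ x, Function.Injective x → Tendsto (fun a => cr μ φ a x) (𝓝[>] 0) (𝓝 (L x)))
    {R : ℝ} (hR : 0 < R) {f : Fin n → ℂ → ℝ} (hf : ∀ i, Tf 0 R (f i))
    (hI : Integrable fun x : Fin n → ℂ => (∏ i, f i (x i)) * L x) :
    Tendsto (fun a => ∫ ω, ∏ i, sm φ a (f i) ω ∂μ) (𝓝[>] 0)
      (𝓝 (∫ x : Fin n → ℂ, (∏ i, f i (x i)) * L x)) := by
  refine Metric.tendsto_nhds.2 fun ε hε => ?_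
  have he : 0 < ε / 6 := by positivity
  obtain ⟨θ, hθ, hS⟩ := sml_all Ω μ φ hF n R hR (ε / 6) he
  have t1 : Tendsto (fun δ => ∫ x, (Sd n δ).indicator (fun x => (∏ i, f i (x i)) * L x) x)
      (𝓝[>] 0) (𝓝 (∫ x : Fin n → ℂ, (∏ i, f i (x i)) * L x)) :=
    tendsto_integral_filter_of_dominated_convergence _
      (Eventually.of_forall fun δ => hI.1.indicator (measurableSet_Sd n δ))
      (Eventually.of_forall fun δ => Eventually.of_forall fun x => norm_indicator_le_norm_self _ x)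
      hI.norm (lim_delta _)
  obtain ⟨δ, ⟨hd1, hd2⟩, hδ⟩ := ((((near_all Ω μ φ hF n R hR).2 (ε / 6) he).and
    (Metric.tendsto_nhds.1 t1 (ε / 6) he)).and self_mem_nhdsWithin).exists
  have hδ : 0 < δ := hδ
  have t2 : Tendsto
      (fun η => ∫ x, (Sd n δ).indicator (fun x => (∏ i, cut δ η (f i) (x i)) * L x) x) (𝓝[>] 0)
      (𝓝 (∫ x, (Sd n δ).indicator (fun x => (∏ i, f i (x i)) * L x) x)) := by
    refine tendsto_integral_filter_of_dominated_convergence _ ?_
      (Eventually.of_forall fun η => Eventually.of_forall fun x => ?_) hI.norm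
      (Eventually.of_forall (lim_eta δ f))
    · filter_upwards [self_mem_nhdsWithin] with η hη using (dct hF hM hL hf hδ hη).1.1
    · refine (norm_indicator_le_norm_self _ x).trans ?_
      rw [Real.norm_eq_abs, Real.norm_eq_abs, abs_mul, abs_mul]
      exact mul_le_mul_of_nonneg_right (abs_prod_le (fun i z => abs_cut_le δ η (f i) z) x)
        (abs_nonneg _)
  have t3 : ∀ i, ∀ᶠ η in 𝓝[>] (0 : ℝ), ∫ x, |f i x - cut δ η (f i) x| ≤ θ := fun i => by
    have hi : Integrable (f i) := ((fub Ω μ φ hF 1 one_pos).1 0 R _ (hf i)).2.1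
    have t : Tendsto (fun η => ∫ x, |f i x - cut δ η (f i) x|) (𝓝[>] 0) (𝓝 (∫ _ : ℂ, (0 : ℝ))) := by
      refine tendsto_integral_filter_of_dominated_convergence _
        (Eventually.of_forall fun η =>
          ((hf i).meas.sub (measurable_cut δ η (hf i).meas)).abs.aestronglyMeasurable)
        (Eventually.of_forall fun η => Eventually.of_forall fun x => ?_) hi.abs
        (Eventually.of_forall fun x => ?_)
      · rw [Real.norm_eq_abs, abs_abs]
        exact abs_sub_cut_le δ η (f i) x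
      · refine tendsto_const_nhds.congr' ?_
        filter_upwards [cut_eventually δ (f i) x] with η hη
        rw [hη, sub_self, abs_zero]
    rw [integral_zero] at t
    exact (t.eventually (Iio_mem_nhds hθ)).mono fun η h => le_of_lt h
  obtain ⟨η, ⟨he1, he2⟩, hη⟩ := (((Metric.tendsto_nhds.1 t2 (ε / 6) he).and
    (eventually_all.2 t3)).and self_mem_nhdsWithin).exists
  have hη : 0 < η := hη
  filter_upwards [hS, Metric.tendsto_nhds.1 (dct hF hM hL hf hδ hη).2 (ε / 6) he,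
    self_mem_nhdsWithin] with a h1 h2 ha
  have b1 := abs_le.1 (h1 f (fun i => cut δ η (f i)) hf (fun i => tf_cut (hf i) δ η)
    (fun i => tf_sub_cut (hf i) δ η) he2)
  have b2 := abs_le.1 (hd1 a ha _ fun i => tf_cut (hf i) δ η)
  rw [Real.dist_eq] at hd2 he1 h2 ⊢
  have b3 := abs_lt.1 hd2
  have b4 := abs_lt.1 he1
  have b5 := abs_lt.1 h2
  rw [abs_lt]
  unfold Sd at b3 b4 b5
  constructor <;> linarith [b1.1, b1.2, b2.1, b2.2, b3.1, b3.2, b4.1, b4.2, b5.1, b5.2]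

/-- bounded measurable functions of bounded support -/
def Bt (f : ℂ → ℝ) : Prop :=
  Measurable f ∧ (∃ B, ∀ x, |f x| ≤ B) ∧ Bornology.IsBounded (Function.support f)

theorem scale {f g : Fin n → ℂ → ℝ} {B : ℝ} (e : ∀ i x, f i x = B * g i x) :
    (∀ (L : (Fin n → ℂ) → ℝ) (x : Fin n → ℂ),
      (∏ i, f i (x i)) * L x = B ^ n * ((∏ i, g i (x i)) * L x)) ∧
    ∀ a ω, ∏ i, sm φ a (f i) ω = B ^ n * ∏ i, sm φ a (g i) ω := by
  refine ⟨fun L x => ?_, fun a ω => ?_⟩
  · simp only [e, Finset.prod_mul_distrib, Finset.prod_const, Finset.card_univ, Fintype.card_fin,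
      mul_assoc]
  · have e3 : ∀ i, sm φ a (f i) ω = B * sm φ a (g i) ω := by
      intro i
      simp only [sm, e, mul_assoc, integral_const_mul]
    simp only [e3, Finset.prod_mul_distrib, Finset.prod_const, Finset.card_univ, Fintype.card_fin]

theorem conv_test (hF : Fd μ φ) (hM : Mac μ φ n)
    (hL : ∀ x, Function.Injective x → Tendsto (fun a => cr μ φ a x) (𝓝[>] 0) (𝓝 (L x)))
    {f : Fin n → ℂ → ℝ} (hf : ∀ i, Bt (f i))
    (hI : Integrable fun x : Fin n → ℂ => (∏ i, f i (x i)) * L x) :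
    Tendsto (fun a => ∫ ω, ∏ i, sm φ a (f i) ω ∂μ) (𝓝[>] 0)
      (𝓝 (∫ x : Fin n → ℂ, (∏ i, f i (x i)) * L x)) := by
  obtain ⟨B, hB, R, hR, g, hg, e⟩ := exists_tf f hf
  obtain ⟨e1, e2⟩ := scale (φ := φ) e
  simp only [e1, e2, integral_const_mul] at hI ⊢
  exact Tendsto.const_mul _ (conv hF hM hL hR hg
    ((integrable_const_mul_iff (IsUnit.mk0 _ (pow_pos hB n).ne') _).1 hI))

theorem fub_test (hF : Fd μ φ) {a : ℝ} (ha : 0 < a) {f : Fin n → ℂ → ℝ} (hf : ∀ i, Bt (f i)) :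
    Integrable (fun x : Fin n → ℂ => (∏ i, f i (x i)) * cr μ φ a x) ∧
    ∫ ω, ∏ i, sm φ a (f i) ω ∂μ = ∫ x : Fin n → ℂ, (∏ i, f i (x i)) * cr μ φ a x := by
  obtain ⟨B, hB, R, hR, g, hg, e⟩ := exists_tf f hf
  obtain ⟨e1, e2⟩ := scale (φ := φ) e
  obtain ⟨h1, h2⟩ := ((fub Ω μ φ hF a ha).2 n).2 0 R g hg
  simp only [e1, e2, integral_const_mul, h2]
  exact ⟨h1.const_mul _, trivial⟩

theorem bd_test (hF : Fd μ φ) {f : Fin n → ℂ → ℝ} (hf : ∀ i, Bt (f i)) :
    ∃ A : ℝ, ∀ a > (0 : ℝ), |∫ ω, ∏ i, sm φ a (f i) ω ∂μ| ≤ A := by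
  obtain ⟨B, hB, R, hR, g, hg, e⟩ := exists_tf f hf
  obtain ⟨-, e2⟩ := scale (φ := φ) e
  obtain ⟨A, hA⟩ := (near_all Ω μ φ hF n R hR).1
  refine ⟨B ^ n * A, fun a ha => ?_⟩
  simp only [e2, integral_const_mul]
  rw [abs_mul, abs_of_pos (pow_pos hB n)]
  exact mul_le_mul_of_nonneg_left (hA a ha g hg) (pow_pos hB n).le

end Vale.Agent.N144.Sf
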