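import Vale.Agent.P144D.MD.Main
import Vale.Agent.P144W.Law13

/-!
Moments of linear statistics of a ferromagnet in a nonnegative field, and domination of the
critical nearest-neighbour model by its plus state.
-/

set_option linter.all false

noncomputable section

namespace Vale.Agent.N144.Sf

open Filter Topology Vale.Agent.P144 Vale.Agent.P144.H436 Vale.Agent.P144W.C13
open scoped Nat

section fin

variable {ι : Type*} [Fintype ι] [DecidableEq ι] {K : ι → ι → ℝ} {h w : ι → ℝ}

theorem ev_lin (K : ι → ι → ℝ) (h w : ι → ℝ) (F : (ι → Bool) → ℝ) :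
    ev K h (fun s => lin w s * F s) = ∑ z, w z * ev K h (fun s => sg z s * F s) := by
  have : (fun s : ι → Bool => lin w s * F s) = fun s => ∑ z, w z * (sg z s * F s) := by
    funext s
    rw [lin, Finset.sum_mul]
    exact Finset.sum_congr rfl fun z _ => mul_assoc _ _ _
  rw [this, ev_sum]
  exact Finset.sum_congr rfl fun z _ => ev_const_mul _ _ _ _

theorem gin_lin (hw : ∀ i, 0 ≤ w i) : Gin (lin w) :=
  Gin.sum _ fun i _ => (Gin.const (hw i)).mul (Gin.spin i)

theorem mag_le (hK : ∀ i j, 0 ≤ K i j) (hh : ∀ i, 0 ≤ h i) (hw : ∀ i, 0 ≤ w i) {t : ℝ}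
    (ht : 0 ≤ t) : ev K (fun i => h i + t * w i) (lin w) ≤
      ev K h (lin w) + t * ev K h (fun s => lin w s ^ 2) := by
  have e0 : (fun i => h i + 0 * w i) = h := by
    funext i
    simp
  have h1 : ∀ z t, 0 ≤ t → cov K (fun i => h i + t * w i) (sg z) (lin w) ≤
      cov K h (sg z) (lin w) := by
    intro z t ht
    have := le_of_deriv (hasDerivAt_cov K h w z) (fun t ht =>
      third_cumulant_nonpos hK (fun i => add_nonneg (hh i) (mul_nonneg ht (hw i))) hw z) ht
    simpa only [e0] using this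
  have h2 : ∀ z, ev K (fun i => h i + t * w i) (sg z) ≤
      ev K h (sg z) + t * ev K h (fun s => sg z s * lin w s) := by
    intro z
    have := le_of_deriv (g := fun t => ev K (fun i => h i + t * w i) (sg z) -
        t * cov K h (sg z) (lin w))
      (fun t => (hasDerivAt_ev K h w (sg z) t).sub
        (by simpa using (hasDerivAt_id t).mul_const (cov K h (sg z) (lin w))))
      (fun t ht => sub_nonpos.2 (h1 z t ht)) ht
    simp only [e0] at this
    simp only [zero_mul, sub_zero, cov] at this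
    have p := mul_nonneg ht (mul_nonneg (gks1 hK hh (Gin.spin z)) (gks1 hK hh (gin_lin hw)))
    have e : (fun s : ι → Bool => sp (s z)) = sg z := rfl
    rw [e] at p
    nlinarith
  have e1 : ∀ k : ι → ℝ, ev K k (lin w) = ∑ z, w z * ev K k (sg z) := fun k => by
    simpa only [mul_one] using ev_lin K k w fun _ => 1
  have e2 : ev K h (fun s => lin w s ^ 2) = ∑ z, w z * ev K h (fun s => sg z s * lin w s) := by
    simpa only [pow_two] using ev_lin K h w (lin w)
  rw [e1, e1, e2, Finset.mul_sum, ← Finset.sum_add_distrib]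
  refine Finset.sum_le_sum fun z _ => ?_
  rw [mul_left_comm, ← mul_add]
  exact mul_le_mul_of_nonneg_left (h2 z) (hw z)

theorem mgf_pos (hK : ∀ i j, 0 ≤ K i j) (hh : ∀ i, 0 ≤ h i) (hw : ∀ i, 0 ≤ w i) {t : ℝ}
    (ht : 0 ≤ t) : ev K h (fun s => Real.exp (t * lin w s)) ≤
      Real.exp (t * ev K h (lin w) + t ^ 2 * ev K h (fun s => lin w s ^ 2) / 2) := by
  set V := ev K h (fun s => lin w s ^ 2) with hV
  set m := ev K h (lin w) with hm
  have e0 : (fun i => h i + 0 * w i) = h := by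
    funext i
    simp
  have hd : ∀ t : ℝ, HasDerivAt (fun t : ℝ => Real.log (∑ s, wt K (fun i => h i + t * w i) s) -
      (t * m + t ^ 2 * V / 2)) (ev K (fun i => h i + t * w i) (lin w) - (m + t * V)) t := by
    intro t
    have hZ : HasDerivAt (fun t : ℝ => ∑ s, wt K (fun i => h i + t * w i) s)
        (∑ s, ((∑ i, w i * sp (s i)) * wt K (fun i => h i + t * w i) s)) t :=
      HasDerivAt.fun_sum fun s _ => hasDerivAt_wt K h w t s
    have h2 : HasDerivAt (fun t : ℝ => t * m + t ^ 2 * V / 2) (m + t * V) t := by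
      refine (((hasDerivAt_id t).mul_const m).add
        (((hasDerivAt_pow 2 t).mul_const V).div_const 2)).congr_deriv ?_
      simp only [Nat.cast_ofNat, Nat.add_one_sub_one, pow_one]
      ring
    exact (hZ.log (Z_pos K _).ne').sub h2
  have h3 := le_of_deriv hd (fun t ht => sub_nonpos.2 (mag_le hK hh hw ht)) ht
  simp only [e0] at h3
  have e1 : ev K h (fun s => Real.exp (t * lin w s)) =
      (∑ s, wt K (fun i => h i + t * w i) s) / ∑ s, wt K h s := by
    unfold ev
    congr 1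
    refine Finset.sum_congr rfl fun s _ => ?_
    unfold wt
    rw [ex_line K h w t s, Real.exp_add, mul_comm]
    rfl
  rw [e1, ← Real.log_le_iff_le_exp (div_pos (Z_pos K _) (Z_pos K _)),
    Real.log_div (Z_pos K _).ne' (Z_pos K _).ne']
  linarith

theorem mom_le (hK : ∀ i j, 0 ≤ K i j) (hh : ∀ i, 0 ≤ h i) (hw : ∀ i, 0 ≤ w i) {t : ℝ}
    (ht : 0 ≤ t) (n : ℕ) : t ^ n / n ! * ev K h (fun s => lin w s ^ n) ≤
      Real.exp (t * ev K h (lin w) + t ^ 2 * ev K h (fun s => lin w s ^ 2) / 2) := by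
  refine le_trans ?_ (mgf_pos hK hh hw ht)
  have hs : HasSum (fun n : ℕ => t ^ n / n ! * ev K h (fun s => lin w s ^ n))
      (ev K h (fun s => Real.exp (t * lin w s))) := by
    have a : ∀ s : ι → Bool, HasSum (fun n : ℕ => (t * lin w s) ^ n / n ! * wt K h s)
        (Real.exp (t * lin w s) * wt K h s) := fun s => by
      have b := NormedSpace.expSeries_div_hasSum_exp (t * lin w s)
      rw [← Real.exp_eq_exp_ℝ] at b
      exact b.mul_right _
    have c := (hasSum_sum (s := Finset.univ) fun s _ => a s).div_const (∑ s, wt K h s)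
    have e : (fun n : ℕ => t ^ n / n ! * ev K h (fun s => lin w s ^ n)) = fun n : ℕ =>
        (∑ s, (t * lin w s) ^ n / n ! * wt K h s) / ∑ s, wt K h s := by
      funext n
      rw [← ev_const_mul, ev]
      congr 1
      exact Finset.sum_congr rfl fun s _ => by rw [mul_pow]; ring
    rw [e]
    exact c
  exact le_hasSum hs n fun k _ =>
    mul_nonneg (by positivity) (gks1 hK hh ((gin_lin hw).pow k))

end fin

/-- the critical nearest-neighbour model as a ferromagnet in a field -/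
theorem rep {J : ℝ} (hJ : 0 < J) (L : Finset Site) : ∃ (K : L → L → ℝ) (h' : L → ℝ),
    (∀ i j, 0 ≤ K i j) ∧ (∀ i, 0 ≤ h' i) ∧ (∀ F, gibbs J 0 (fun _ => 0) (Kc / J) (some bcp) L F =
      ev K h' fun s => F (exs L bcp s)) ∧ ∀ b, ∃ (h : L → ℝ) (η : Config), (∀ i, |h i| ≤ h' i) ∧
      ∀ F, gibbs J 0 (fun _ => 0) (Kc / J) b L F = ev K h fun s => F (exs L η s) := by
  have hW := window_win L
  have hβ := (div_pos kc_pos hJ).le
  have hpf : ∀ u, 0 ≤ pf (Kc / J) J 0 L (win L) u := fun u =>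
    mul_nonneg hβ (Finset.sum_nonneg fun v _ => cpl_nonneg hJ.le le_rfl _ _)
  refine ⟨KK (Kc / J) J 0 L, fun i => pf (Kc / J) J 0 L (win L) i, KK_nonneg hβ hJ.le le_rfl L,
    fun i => hpf i, fun F => by rw [← P144Z.St.gibbs_V0 J _ Vk, gibbs_plus hW], fun b => ?_⟩
  cases b with
  | none =>
    exact ⟨fun _ => 0, fun _ => true, fun u => by rw [abs_zero]; exact hpf u, fun F => by
      rw [← P144Z.St.gibbs_V0 J _ Vk, gibbs_freeK]⟩
  | some η =>
    refine ⟨_, η, fun u => ?_, fun F => by rw [← P144Z.St.gibbs_V0 J _ Vk, gibbs_knight J 0 _ hW]⟩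
    show _ ≤ pf _ _ _ _ _ _
    rw [← fld_bcp, abs_mul, abs_of_nonneg hβ]
    refine mul_le_mul_of_nonneg_left ?_ hβ
    unfold P144.fld
    refine (Finset.abs_sum_le_sum_abs _ _).trans (Finset.sum_le_sum fun v _ => ?_)
    split_ifs with h
    · rw [abs_mul, P144.abs_sp, mul_one]
      simp only [bcp, sp_true, mul_one]
      rw [abs_of_nonneg (cpl_nonneg hJ.le le_rfl _ _)]
    · simp

/-- domination by the plus state -/
theorem dom_plus {J : ℝ} (hJ : 0 < J) (b : Option Config) {L : Finset Site} {n : ℕ}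
    {w : Fin n → Site} (hw : ∀ i, w i ∈ L) {c : ℝ} (hc : 0 ≤ c) :
    |gibbs J 0 (fun _ => 0) (Kc / J) b L fun σ => ∏ i, c * sp (σ (w i))| ≤
      gibbs J 0 (fun _ => 0) (Kc / J) (some bcp) L fun σ => ∏ i, c * sp (σ (w i)) := by
  obtain ⟨K, h', hK, -, e1, e2⟩ := rep hJ L
  obtain ⟨h, η, hh, e3⟩ := e2 b
  have hG : Gin fun s : L → Bool => ∏ i, c * sp (s ⟨w i, hw i⟩) :=
    Gin.prod _ fun i _ => (Gin.const hc).mul (Gin.spin _)
  rw [e1, e3]
  simp only [exs_mem (hw _)]
  exact abs_le.2 ⟨neg_le.1 (P144Z.MD.neg_ev_le hK hh hG), ev_le_abs hK hh hG⟩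

/-- moments in the plus state -/
theorem plus_mom {J : ℝ} (hJ : 0 < J) (L : Finset Site) {c : Site → ℝ} (hc : ∀ i, 0 ≤ c i)
    {S : Config → ℝ} (hS : ∀ σ, S σ = ∑ i ∈ L, c i * sp (σ i)) {t : ℝ} (ht : 0 ≤ t) (n : ℕ) :
    t ^ n / n ! * gibbs J 0 (fun _ => 0) (Kc / J) (some bcp) L (fun σ => S σ ^ n) ≤
      Real.exp (t * gibbs J 0 (fun _ => 0) (Kc / J) (some bcp) L S +
        t ^ 2 * gibbs J 0 (fun _ => 0) (Kc / J) (some bcp) L (fun σ => S σ ^ 2) / 2) := by
  obtain ⟨K, h', hK, hh, e1, -⟩ := rep hJ L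
  have e : ∀ s, S (exs L bcp s) = lin (fun i : L => c i) s := by
    intro s
    rw [hS, ← Finset.sum_coe_sort]
    exact Finset.sum_congr rfl fun i _ => by rw [exs_mem i.2]
  simp only [e1, e]
  exact mom_le hK hh (fun i => hc i) ht n

end Vale.Agent.N144.Sf
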