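import Vale.Agent.N144.DefsS
import Vale.Agent.N144.Sf.Conv
import Vale.Agent.N144.Sf.Ghs
import Vale.Agent.P144M13.Gen
import Mathlib.Probability.ProductMeasure

/-!
The rescaled spin field of a family of finite-volume Gibbs states, cut to a compact set.
-/

set_option linter.all false

noncomputable section

namespace Vale.Agent.N144.Sf

open MeasureTheory Filter Topology Metric Vale.Agent.P144 Vale.Agent.P144Z Vale.Agent.P144W
open Vale.Agent.P144F58

/-- the rescaled spin correlation -/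
def cs (E : Fam) (a : ℝ) {n : ℕ} (x : Fin n → ℂ) : ℝ := corr a (E a) ⟨n, 0, x, ![], ![]⟩

theorem cs_eq (E : Fam) (a : ℝ) {n : ℕ} (x : Fin n → ℂ) :
    cs E a x = E a fun σ => ∏ i, a ^ (-(1 / 8) : ℝ) * sp (σ (fl a (x i))) := by
  simp only [cs, corr, Finset.univ_eq_empty, Finset.prod_empty, mul_one]

/-- the field cut to `K` -/
def pk (K : Set ℂ) (a : ℝ) (x : ℂ) (ω : ℝ → Config) : ℝ :=
  K.indicator (fun x => a ^ (-(1 / 8) : ℝ) * sp (ω a (fl a x))) x

/-- `μ` has the marginals `E` -/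
def Rp (E : Fam) (μ : Measure (ℝ → Config)) : Prop :=
  IsProbabilityMeasure μ ∧ ∀ a G, ∫ ω, G (ω a) ∂μ = E a G

theorem exists_rp (J lam : ℝ) (V : Finset Site → ℝ) (β : ℝ) (D : Set ℂ)
    (b : Option (ℝ → Config)) : ∃ μ, Rp (inDom J lam V β D b) μ := by
  choose ρ hρ using fun a => P144M13.gibbs_law J lam V β (b.map fun η => η a) (disc D a) id
  refine ⟨Measure.infinitePi fun a => (ρ a : Measure Config), inferInstance, fun a G => ?_⟩
  have e := Measure.infinitePi_map_eval (fun a => (ρ a : Measure Config)) a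
  have m : AEStronglyMeasurable G ((Measure.infinitePi fun a => (ρ a : Measure Config)).map
      fun ω => ω a) := by
    rw [show (fun ω : ℝ → Config => ω a) = Function.eval a from rfl, e]
    exact (hρ a G).1.1
  rw [← integral_map (measurable_pi_apply a).aemeasurable m,
    show (fun ω : ℝ → Config => ω a) = Function.eval a from rfl, e]
  exact (hρ a G).2

variable {E : Fam} {μ : Measure (ℝ → Config)} {K D : Set ℂ} {n : ℕ}

theorem cr_in (h : Rp E μ) (a : ℝ) {x : Fin n → ℂ} (hx : ∀ i, x i ∈ K) :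
    cr μ (pk K) a x = cs E a x := by
  rw [cs_eq, ← h.2, cr]
  simp only [pk, Set.indicator_of_mem (hx _)]

theorem cr_out (a : ℝ) {x : Fin n → ℂ} (hx : ¬∀ i, x i ∈ K) : cr μ (pk K) a x = 0 := by
  obtain ⟨i, hi⟩ := not_forall.1 hx
  have : ∀ ω, ∏ i, pk K a (x i) ω = 0 := fun ω =>
    Finset.prod_eq_zero (Finset.mem_univ i) (Set.indicator_of_notMem hi _)
  simp only [cr, this, integral_zero]

theorem sm_eq {f : ℂ → ℝ} (hf : Function.support f ⊆ K) (a : ℝ) (ω : ℝ → Config) :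
    sm (pk K) a f ω = smear a f (ω a) := by
  refine integral_congr_ae (Eventually.of_forall fun x => ?_)
  by_cases h : f x = 0
  · simp only [h, zero_mul]
  · simp only [pk, Set.indicator_of_mem (hf h)]

theorem mom_eq (h : Rp E μ) {f : Fin n → ℂ → ℝ} (hf : ∀ i, Function.support (f i) ⊆ K) (a : ℝ) :
    ∫ ω, ∏ i, sm (pk K) a (f i) ω ∂μ = E a fun σ => ∏ i, smear a (f i) σ := by
  simp only [sm_eq (hf _)]
  exact h.2 a fun σ => ∏ i, smear a (f i) σ

/-- the correlations of separated points of `K` are bounded -/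
def MacK (K : Set ℂ) (E : Fam) : Prop :=
  ∀ n > 0, ∀ s > (0 : ℝ), ∃ M : ℝ, ∀ᶠ a in 𝓝[>] (0 : ℝ), ∀ x : Fin n → ℂ, (∀ i, x i ∈ K) →
    (∀ i j, i ≠ j → s ≤ ‖x i - x j‖) → |cs E a x| ≤ M

theorem mac_of (h : Rp E μ) (hM : MacK K E) (hn : 0 < n) : Mac μ (pk K) n := by
  intro s hs
  obtain ⟨M, hM⟩ := hM n hn s hs
  refine ⟨|M|, hM.mono fun a ha x hx => ?_⟩
  by_cases hK : ∀ i, x i ∈ K
  · rw [cr_in h a hK]
    exact (ha x hK hx).trans (le_abs_self _)
  · rw [cr_out a hK, abs_zero]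
    exact abs_nonneg _

theorem deep (hK : IsCompact K) (ho : IsOpen D) (hKD : K ⊆ D) :
    ∃ d > (0 : ℝ), ∀ x ∈ K, ball x d ⊆ D := by
  obtain ⟨d, hd, h⟩ := hK.exists_thickening_subset_open ho hKD
  exact ⟨d, hd, fun x hx => (ball_subset_thickening hx d).trans h⟩

theorem fd_of (hK : IsCompact K) (ho : IsOpen D) (hKD : K ⊆ D) (h : Rp E μ) (hS : SepD D E)
    (hM : MacK K E) : Fd μ (pk K) where
  prob := h.1
  meas := fun a => Measurable.indicator (f := fun p : ℂ × (ℝ → Config) =>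
      a ^ (-(1 / 8) : ℝ) * sp (p.2 a (fl a p.1))) (s := Prod.fst ⁻¹' K)
    ((spin_meas a).comp (f := fun p : ℂ × (ℝ → Config) => (p.1, p.2 a))
      (measurable_fst.prodMk ((measurable_pi_apply a).comp measurable_snd)))
    (measurable_fst hK.measurableSet)
  bd := fun a ha x ω => by
    have p : 0 ≤ a ^ (-(1 / 8) : ℝ) := Real.rpow_nonneg ha.le _
    by_cases hx : x ∈ K
    · rw [pk, Set.indicator_of_mem hx, abs_mul, abs_sp, mul_one, abs_of_nonneg p]
    · rw [pk, Set.indicator_of_notMem hx, abs_zero]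
      exact p
  sep := fun n he h2 δ hδ => by
    obtain ⟨d, hd, hb⟩ := deep hK ho hKD
    obtain ⟨C, T, ε₀, hC, hT, hε₀, hs⟩ := hS (d / 2) (by positivity) n he δ hδ
    have he1 : 0 < min ε₀ (d / 2) := lt_min hε₀ (by positivity)
    obtain ⟨M, hM⟩ := hM n (by omega) (δ * min ε₀ (d / 2)) (by positivity)
    obtain ⟨a₀, ha₀, hM⟩ := mem_nhdsGT_iff_exists_Ioo_subset.1 hM
    have ha₀ : 0 < a₀ := ha₀
    obtain ⟨B, hB0, hB⟩ := hK.isBounded.subset_ball_lt 0 (0 : ℂ)
    have hW : 0 < 2 * B / δ := by positivity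
    have pW : 0 < ((2 * B / δ) ^ (-(1 / 8) : ℝ)) ^ n := by positivity
    refine ⟨C + |M| / ((2 * B / δ) ^ (-(1 / 8) : ℝ)) ^ n, T + (2 * B / δ) / a₀, by positivity,
      by positivity, fun a ε z x ha hTa hx hsep => ?_⟩
    have q1 : 0 < T * a := by positivity
    have q2 : 0 < 2 * B / δ / a₀ * a := by positivity
    have hε : 0 < ε := by nlinarith
    have pε : 0 ≤ (ε ^ (-(1 / 8) : ℝ)) ^ n := by positivity
    by_cases hxK : ∀ i, x i ∈ K
    swap
    · rw [cr_out a hxK, abs_zero]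
      positivity
    rw [cr_in h a hxK, add_mul]
    have i0 : Fin n := ⟨0, by omega⟩
    rcases le_total ε (min ε₀ (d / 2)) with c | c
    · refine le_add_of_le_of_nonneg (hs a ε z x ha (by nlinarith) (c.trans (min_le_left _ _))
        (fun y hy => hb _ (hxK i0) ?_) hx hsep) (by positivity)
      have y1 := mem_ball.1 hy
      have y2 := mem_ball.1 (hx i0)
      have y3 := dist_triangle_right y (x i0) z
      have y4 := c.trans (min_le_right _ _)
      rw [mem_ball]
      linarith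
    · refine le_add_of_nonneg_of_le (by positivity) ?_
      have w1 := hsep ⟨0, by omega⟩ ⟨1, by omega⟩ (by simp)
      have w2 := mem_ball_zero_iff.1 (hB (hxK ⟨0, by omega⟩))
      have w3 := mem_ball_zero_iff.1 (hB (hxK ⟨1, by omega⟩))
      have w4 := norm_sub_le (x ⟨0, by omega⟩) (x ⟨1, by omega⟩)
      have w5 : ε ≤ 2 * B / δ := by
        rw [le_div_iff₀ hδ]
        linarith
      have w6 : a < a₀ := by
        have : 2 * B / δ / a₀ * a < 2 * B / δ := by nlinarith
        rw [div_mul_eq_mul_div, div_lt_iff₀ ha₀] at this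
        exact lt_of_mul_lt_mul_left this hW.le
      refine (hM ⟨ha, w6⟩ x hxK fun i j e =>
        (mul_le_mul_of_nonneg_left c hδ.le).trans (hsep i j e)).trans ((le_abs_self M).trans ?_)
      rw [div_mul_eq_mul_div, le_div_iff₀ pW]
      exact mul_le_mul_of_nonneg_left (pow_le_pow_left₀ (by positivity)
        (Real.rpow_le_rpow_of_nonpos hε w5 (by norm_num)) n) (abs_nonneg _)

theorem near_fl {a : ℝ} (ha : 0 < a) (u : ℝ) : |u - a * ⌊u / a⌋| ≤ a := by
  have h1 := Int.floor_le (u / a)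
  have h2 := Int.lt_floor_add_one (u / a)
  rw [le_div_iff₀ ha] at h1
  rw [div_lt_iff₀ ha] at h2
  rw [abs_le]
  constructor <;> nlinarith

theorem near_zd {a : ℝ} (ha : 0 < a) (x : ℂ) {v : Site} {r : ℕ} (h : zd v (fl a x) ≤ r) :
    ‖(⟨a * v.1, a * v.2⟩ : ℂ) - x‖ ≤ 2 * a * (r + 1) := by
  have k : ∀ (u : ℝ) (m : ℤ), (m - ⌊u / a⌋).natAbs ≤ r → |a * m - u| ≤ a * (r + 1) := by
    intro u m hm
    have b1 : |(m : ℝ) - ⌊u / a⌋| ≤ r := by
      have : |m - ⌊u / a⌋| ≤ (r : ℤ) := by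
        rw [Int.abs_eq_natAbs]
        exact_mod_cast hm
      exact_mod_cast this
    have b2 := abs_le.1 (near_fl ha u)
    have b3 := abs_le.1 b1
    rw [abs_le]
    constructor <;> nlinarith [b3.1, b3.2]
  refine (Complex.norm_le_abs_re_add_abs_im _).trans ?_
  simp only [Complex.sub_re, Complex.sub_im]
  linarith [k x.re v.1 ((le_max_left _ _).trans h), k x.im v.2 ((le_max_right _ _).trans h)]

/-- the bound for the nearest-neighbour model -/
theorem zero_bd {J : ℝ} (hJ : 0 < J) (n : ℕ) : ∃ C : ℝ, 0 ≤ C ∧ ∀ D : Set ℂ,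
    Bornology.IsBounded D → ∀ (b : Option (ℝ → Config)) (a s : ℝ) (x : Fin n → ℂ), 0 < a →
    16 * a ≤ s → (∀ i, ball (x i) s ⊆ D) → (∀ i j, i ≠ j → s ≤ ‖x i - x j‖) →
    |cs (crit J D b) a x| ≤ C * (s ^ (-(1 / 8) : ℝ)) ^ n := by
  obtain ⟨C, hC, h⟩ := MD.spin_decay hJ n
  refine ⟨C * ((8 : ℝ) ^ (1 / 8 : ℝ)) ^ n, by positivity, fun D hD b a s x ha hs hin hsep => ?_⟩
  have s0 : 0 < s := by linarith
  have r1 : (⌊s / (4 * a)⌋₊ : ℝ) ≤ s / (4 * a) := Nat.floor_le (by positivity)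
  have r2 := Nat.lt_floor_add_one (s / (4 * a))
  rw [le_div_iff₀ (by positivity)] at r1
  rw [div_lt_iff₀ (by positivity)] at r2
  generalize ⌊s / (4 * a)⌋₊ = r at r1 r2
  have r3 : (3 : ℝ) < r := by nlinarith
  have r4 : 1 ≤ r := by exact_mod_cast (show (1 : ℝ) ≤ r by linarith)
  have h5 : ∀ i j, i ≠ j → r < zd (fl a (x i)) (fl a (x j)) := fun i j e => by
    by_contra hn
    have c1 := near_zd ha (x j) (not_lt.1 hn)
    have c2 := near_zd ha (x i) (v := fl a (x i)) (r := 0) (by simp [zd])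
    have c3 := norm_sub_le_norm_sub_add_norm_sub (x i) (⟨a * (fl a (x i)).1, a * (fl a (x i)).2⟩ : ℂ)
      (x j)
    rw [norm_sub_rev] at c2
    have := hsep i j e
    push_cast at c2
    nlinarith
  have hinj : Function.Injective fun i => fl a (x i) := by
    intro i i' e
    by_contra hne
    have := h5 i i' hne
    simp only at e
    rw [e] at this
    simp [zd] at this
  have hb := h r r4 (b.map fun η => η a) (disc D a) (Finset.univ.image fun i => fl a (x i))
    (by rw [Finset.card_image_of_injective _ hinj]; simp) (by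
    intro u hu v hv huv
    obtain ⟨i, -, rfl⟩ := Finset.mem_image.1 hu
    obtain ⟨i', -, rfl⟩ := Finset.mem_image.1 hv
    exact h5 i i' fun e => huv (by rw [e])) (by
    intro u hu v hv
    obtain ⟨i, -, rfl⟩ := Finset.mem_image.1 hu
    refine (mem_disc hD ha v).2 (hin i ?_)
    rw [mem_ball, dist_eq_norm]
    refine (near_zd ha (x i) hv).trans_lt ?_
    nlinarith)
  simp only [Finset.prod_image (fun i _ k _ h => hinj h)] at hb
  obtain ⟨μ, hμ⟩ := exists_rp J 0 (fun _ => 0) (Kc / J) D b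
  have e : cs (crit J D b) a x = (a ^ (-(1 / 8) : ℝ)) ^ n * gibbs J 0 (fun _ => 0) (Kc / J)
      (b.map fun η => η a) (disc D a) fun σ => ∏ i, sp (σ (fl a (x i))) := by
    have e1 := hμ.2 a fun σ => ∏ i, sp (σ (fl a (x i)))
    rw [inDom] at e1
    rw [cs_eq, crit, ← hμ.2, ← e1, ← integral_const_mul]
    simp only [Finset.prod_mul_distrib, Finset.prod_const, Finset.card_univ, Fintype.card_fin]
  have r0 : (0 : ℝ) < r := by linarith
  have e2 := MD.rp_pow 1 r0.le n
  rw [one_mul, one_pow, one_mul] at e2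
  have e3 := MD.rp_le (a := 8) (y := a * r) s0 (by norm_num) (by nlinarith)
  rw [Real.mul_rpow ha.le r0.le] at e3
  rw [e, abs_mul, abs_of_nonneg (by positivity)]
  refine (mul_le_mul_of_nonneg_left hb (by positivity)).trans ?_
  rw [← e2, mul_left_comm, ← mul_pow, mul_assoc, ← mul_pow]
  exact mul_le_mul_of_nonneg_left (pow_le_pow_left₀ (by positivity) e3 n) hC.le

theorem sep_zero {J : ℝ} (hJ : 0 < J) (hD : Bornology.IsBounded D) (b : Option (ℝ → Config)) :
    SepD D (crit J D b) := by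
  intro s hs n _ δ hδ
  obtain ⟨C, hC, h⟩ := zero_bd hJ n
  have m0 : 0 < min δ 1 := lt_min hδ one_pos
  refine ⟨C * ((min δ 1) ^ (-(1 / 8) : ℝ)) ^ n, 16 / min δ 1, s / 2, by positivity, by positivity,
    by positivity, fun a ε z x ha hT he hz hx hsep => ?_⟩
  rw [div_mul_eq_mul_div, div_le_iff₀ m0] at hT
  have hε : 0 < ε := by
    by_contra hn
    nlinarith [not_lt.1 hn]
  have m1 : min δ 1 * ε ≤ ε := mul_le_of_le_one_left hε.le (min_le_right _ _)
  have := h D hD b a (min δ 1 * ε) x ha (by linarith) (fun i y hy => hz (by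
    have y1 := mem_ball.1 hy
    have y2 := mem_ball.1 (hx i)
    have y3 := dist_triangle y (x i) z
    rw [mem_ball]
    linarith)) fun i j e =>
      (mul_le_mul_of_nonneg_right (min_le_left _ _) hε.le).trans (hsep i j e)
  rwa [Real.mul_rpow m0.le hε.le, mul_pow, ← mul_assoc] at this

theorem mac_zero {J : ℝ} (hJ : 0 < J) (hD : Bornology.IsBounded D) (hK : IsCompact K)
    (ho : IsOpen D) (hKD : K ⊆ D) (b : Option (ℝ → Config)) : MacK K (crit J D b) := by
  intro n _ s hs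
  obtain ⟨d, hd, hb⟩ := deep hK ho hKD
  obtain ⟨C, hC, h⟩ := zero_bd hJ n
  have m0 : 0 < min s d / 16 := by
    have := lt_min hs hd
    positivity
  refine ⟨C * ((min s d) ^ (-(1 / 8) : ℝ)) ^ n, ?_⟩
  filter_upwards [mem_nhdsWithin_of_mem_nhds (Iic_mem_nhds m0), self_mem_nhdsWithin]
    with a h1 ha x hx hsep
  have h1 : a ≤ min s d / 16 := h1
  exact h D hD b a _ x ha (by linarith)
    (fun i => (ball_subset_ball (min_le_right _ _)).trans (hb _ (hx i)))
    fun i j e => (min_le_left _ _).trans (hsep i j e)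

theorem good_of (hn : 0 < n) {x : Fin n → ℂ} (hx : Function.Injective x) (hD : ∀ i, x i ∈ D)
    (y : Fin 0 → ℂ) (j : Fin 0 → Fin 2) : Good D ⟨n, 0, x, y, j⟩ := by
  refine ⟨hn, hD, fun k => k.elim0, ?_⟩
  rintro (i | i) (k | k) e
  · exact congrArg Sum.inl (hx e)
  · exact k.elim0
  · exact i.elim0
  · exact i.elim0

theorem mac_diff {E₀ : Fam} {Z Zε : ℝ} (hK : IsCompact K) (hKD : K ⊆ D) (h0 : MacK K E₀)
    (hD : LocDiff D E₀ E Z Zε) : MacK K E := by
  intro n hn s hs
  obtain ⟨M, h⟩ := h0 n hn s hs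
  set S : Set ((Fin n → ℂ) × (Fin 0 → ℂ)) :=
    (Set.pi Set.univ (fun _ => K) ×ˢ Set.univ) ∩ {z | ∀ i k, i ≠ k → s ≤ ‖z.1 i - z.1 k‖} with hS
  have hc : ∀ i, Continuous fun w : (Fin n → ℂ) × (Fin 0 → ℂ) => w.1 i := fun i =>
    (continuous_apply i).comp continuous_fst
  have hcp : IsCompact S := by
    refine ((isCompact_univ_pi fun _ => hK).prod (Set.toFinite _).isCompact).inter_right ?_
    simp only [Set.setOf_forall]
    exact isClosed_iInter fun i => isClosed_iInter fun k => isClosed_iInter fun _ =>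
      isClosed_le continuous_const ((hc i).sub (hc k)).norm
  have h1 := (tendstoLocallyUniformlyOn_iff_tendstoUniformlyOn_of_compact hcp).1
    ((hD n 0 ![]).mono (s' := S) fun z hz => good_of hn (fun i k e => by
      by_contra hne
      have h2 := hz.2 i k hne
      rw [e, sub_self, norm_zero] at h2
      linarith) (fun i => hKD (hz.1.1 i trivial)) _ _)
  refine ⟨1 + |Z ^ n * Zε ^ 0| * M, ?_⟩
  filter_upwards [h, Metric.tendstoUniformlyOn_iff.1 h1 1 one_pos] with a h2 h3 x hx hs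
  have h4 := h3 (x, ![]) ⟨⟨fun i _ => hx i, trivial⟩, hs⟩
  have h5 := h2 x hx hs
  rw [Pi.zero_apply, dist_zero_left, Real.norm_eq_abs] at h4
  change |cs E a x - _ * cs E₀ a x| < 1 at h4
  generalize cs E₀ a x = B at h4 h5
  generalize Z ^ n * Zε ^ 0 = Y at h4 ⊢
  have h6 := abs_add_le (cs E a x - Y * B) (Y * B)
  rw [sub_add_cancel, abs_mul] at h6
  have h7 := mul_le_mul_of_nonneg_left h5 (abs_nonneg Y)
  linarith

theorem lim_diff {E₀ : Fam} {Z Zε c : ℝ} (hD : LocDiff D E₀ E Z Zε) {x : Fin n → ℂ}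
    (hx : Good D ⟨n, 0, x, ![], ![]⟩) (h : Lim E₀ ⟨n, 0, x, ![], ![]⟩ c) :
    Tendsto (fun a => cs E a x) (𝓝[>] 0) (𝓝 (Z ^ n * c)) := by
  have t := ((hD n 0 ![]).tendsto_at (a := (x, ![])) hx).add (Tendsto.const_mul (Z ^ n * Zε ^ 0) h)
  simpa only [cs, sub_add_cancel, Pi.zero_apply, zero_add, pow_zero, mul_one] using t

end Vale.Agent.N144.Sf
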