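import Vale.Agent.P144W.Dl
import Vale.Agent.P144W.Fub
import Vale.Agent.P144W.Step
import Vale.Agent.P144W.Mom
import Vale.Agent.P144W.Sml
import Vale.Agent.P144W.Near

/-!
Smeared fields whose separated correlations are only controlled for an even number of points:
the rows of `P144W` again.
-/

set_option linter.all false

noncomputable section

namespace Vale.Agent.N144.Sf

open MeasureTheory Filter Topology Metric Vale.Agent.P144W

variable {Ω : Type} [MeasurableSpace Ω]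

/-- the fields -/
structure Fd (μ : Measure Ω) (φ : ℝ → ℂ → Ω → ℝ) : Prop where
  prob : IsProbabilityMeasure μ
  meas : ∀ a, Measurable fun p : ℂ × Ω => φ a p.1 p.2
  bd : ∀ a > (0 : ℝ), ∀ x ω, |φ a x ω| ≤ a ^ (-(1 / 8) : ℝ)
  sep : ∀ n : ℕ, Even n → 2 ≤ n → ∀ δ > (0 : ℝ), ∃ K T : ℝ, 0 ≤ K ∧ 0 < T ∧ ∀ (a ε : ℝ) (z : ℂ) (x : Fin n → ℂ),
    0 < a → T * a ≤ ε → (∀ i, x i ∈ ball z ε) → (∀ i j, i ≠ j → δ * ε ≤ ‖x i - x j‖) →
    |cr μ φ a x| ≤ K * (ε ^ (-(1 / 8) : ℝ)) ^ n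

/-- row FUB: Fubini -/
def FUB : Prop := ∀ (Ω : Type) [MeasurableSpace Ω] (μ : Measure Ω) φ, Fd μ φ → ∀ a > (0 : ℝ),
  (∀ z ε g, Tf z ε g → Measurable (sm φ a g) ∧ Integrable g ∧ (∀ ω, Integrable fun x => g x * φ a x ω) ∧
    (∀ ω, |sm φ a g ω| ≤ a ^ (-(1 / 8) : ℝ) * ∫ x, |g x|) ∧ (0 ≤ ε → ∫ x, |g x| ≤ 4 * ε ^ 2)) ∧
  ∀ (n : ℕ), Measurable (fun x : Fin n → ℂ => cr μ φ a x) ∧ ∀ z ε (f : Fin n → ℂ → ℝ),
    (∀ i, Tf z ε (f i)) → Integrable (fun x : Fin n → ℂ => (∏ i, f i (x i)) * cr μ φ a x) ∧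
    ∫ ω, ∏ i, sm φ a (f i) ω ∂μ = ∫ x : Fin n → ℂ, (∏ i, f i (x i)) * cr μ φ a x

/-- row STEP: one change of scale -/
def STEP : Prop := ∀ n : ℕ, Even n → 2 ≤ n → ∃ c : ℝ, 0 ≤ c ∧ ∀ (Ω : Type) [MeasurableSpace Ω]
  (μ : Measure Ω) φ, Fd μ φ → ∀ δ > (0 : ℝ), δ ≤ 1 → ∃ K T : ℝ, 0 ≤ K ∧ 0 < T ∧ ∀ (a ε B : ℝ) z g,
    0 < a → T * a ≤ ε → Tf z ε g → 0 ≤ B →
    (∀ z' g', Tf z' (2 * δ * ε) g' → ∫ ω, sm φ a g' ω ^ n ∂μ ≤ B) →
    ∫ ω, sm φ a g ω ^ n ∂μ ≤ K * (ε ^ (-(1 / 8) : ℝ) * ∫ x, |g x|) ^ n + c * δ⁻¹ ^ n * B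

/-- row MOM: moments at all scales -/
def MOM : Prop := ∀ (Ω : Type) [MeasurableSpace Ω] (μ : Measure Ω) φ, Fd μ φ → ∀ n : ℕ, Even n →
  ∃ A : ℝ, 0 ≤ A ∧ ∀ a > (0 : ℝ), ∀ ε > (0 : ℝ), ∀ z g, Tf z ε g →
    ∫ ω, sm φ a g ω ^ n ∂μ ≤ A * (ε ^ (15 / 8 : ℝ)) ^ n

/-- row SML: small test functions change the moments little -/
def SML : Prop := ∀ (Ω : Type) [MeasurableSpace Ω] (μ : Measure Ω) φ, Fd μ φ → ∀ (n : ℕ),
  ∀ R > (0 : ℝ), ∀ η > (0 : ℝ), ∃ θ > (0 : ℝ), ∀ᶠ a in 𝓝[>] (0 : ℝ), ∀ f f' : Fin n → ℂ → ℝ,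
    (∀ i, Tf 0 R (f i)) → (∀ i, Tf 0 R (f' i)) → (∀ i, Tf 0 R (f i - f' i)) →
    (∀ i, ∫ x, |f i x - f' i x| ≤ θ) →
    |∫ ω, ∏ i, sm φ a (f i) ω ∂μ - ∫ ω, ∏ i, sm φ a (f' i) ω ∂μ| ≤ η

/-- row NEAR: the diagonals carry little -/
def NEAR : Prop := ∀ (Ω : Type) [MeasurableSpace Ω] (μ : Measure Ω) φ, Fd μ φ → ∀ (n : ℕ),
  ∀ R > (0 : ℝ), (∃ A : ℝ, ∀ a > (0 : ℝ), ∀ f : Fin n → ℂ → ℝ, (∀ i, Tf 0 R (f i)) →
    |∫ ω, ∏ i, sm φ a (f i) ω ∂μ| ≤ A) ∧ ∀ η > (0 : ℝ), ∀ᶠ δ in 𝓝[>] (0 : ℝ), ∀ a > (0 : ℝ),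
    ∀ f : Fin n → ℂ → ℝ, (∀ i, Tf 0 R (f i)) → |∫ ω, ∏ i, sm φ a (f i) ω ∂μ -
      ∫ x in {x : Fin n → ℂ | Function.Injective fun i => bx δ (x i)},
        (∏ i, f i (x i)) * cr μ φ a x| ≤ η

theorem fub : FUB := by
  intro Ω _ μ φ hF a ha
  haveI := hF.prob
  have hA : (0 : ℝ) ≤ a ^ (-(1 / 8) : ℝ) := Real.rpow_nonneg ha.le _
  have mφ : ∀ (n : ℕ) (i : Fin n), Measurable fun p : (Fin n → ℂ) × Ω => φ a (p.1 i) p.2 :=
    fun n i => (hF.meas a).comp (f := fun p : (Fin n → ℂ) × Ω => (p.1 i, p.2))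
      (((measurable_pi_apply i).comp measurable_fst).prodMk measurable_snd)
  have bφ : ∀ (n : ℕ) (x : Fin n → ℂ) (ω : Ω),
      |∏ i, φ a (x i) ω| ≤ (a ^ (-(1 / 8) : ℝ)) ^ n := by
    intro n x ω
    rw [Finset.abs_prod]
    refine (Finset.prod_le_prod (fun i _ => abs_nonneg _) fun i _ => hF.bd a ha (x i) ω).trans ?_
    rw [Finset.prod_const, Finset.card_univ, Fintype.card_fin]
  refine ⟨fun z ε g hg => ?_, fun n => ?_⟩
  · have mg : Measurable fun p : ℂ × Ω => g p.1 * φ a p.1 p.2 :=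
      (hg.meas.comp measurable_fst).mul (hF.meas a)
    have hb : ∀ ω x, ‖g x * φ a x ω‖ ≤ a ^ (-(1 / 8) : ℝ) * |g x| := by
      intro ω x
      rw [Real.norm_eq_abs, abs_mul, mul_comm]
      exact mul_le_mul_of_nonneg_right (hF.bd a ha x ω) (abs_nonneg _)
    refine ⟨(mg.stronglyMeasurable.integral_prod_left' (μ := volume)).measurable, hg.int,
      fun ω => ?_, fun ω => ?_, hg.int_le⟩
    · exact (hg.int.abs.const_mul _).mono'
        (mg.comp (measurable_id.prodMk measurable_const)).aestronglyMeasurable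
        (Eventually.of_forall (hb ω))
    · rw [← integral_const_mul, ← Real.norm_eq_abs]
      exact norm_integral_le_of_norm_le (hg.int.abs.const_mul _) (Eventually.of_forall (hb ω))
  · have mP : Measurable fun p : (Fin n → ℂ) × Ω => ∏ i, φ a (p.1 i) p.2 :=
      Finset.measurable_prod _ fun i _ => mφ n i
    have mc : Measurable fun x : Fin n → ℂ => cr μ φ a x :=
      (mP.stronglyMeasurable.integral_prod_right' (ν := μ)).measurable
    have bc : ∀ x : Fin n → ℂ, |cr μ φ a x| ≤ (a ^ (-(1 / 8) : ℝ)) ^ n := by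
      intro x
      have h := norm_integral_le_of_norm_le_const (μ := μ) (f := fun ω => ∏ i, φ a (x i) ω)
        (C := (a ^ (-(1 / 8) : ℝ)) ^ n) (Eventually.of_forall fun ω => bφ n x ω)
      simpa [cr] using h
    refine ⟨mc, fun z ε f hf => ?_⟩
    have iF : Integrable fun x : Fin n → ℂ => ∏ i, f i (x i) :=
      Integrable.fintype_prod (μ := fun _ : Fin n => (volume : Measure ℂ)) fun i => (hf i).int
    have mF : Measurable fun x : Fin n → ℂ => ∏ i, f i (x i) :=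
      Finset.measurable_prod _ fun i _ => (hf i).meas.comp (measurable_pi_apply i)
    have iG : Integrable fun x : Fin n → ℂ => |∏ i, f i (x i)| * (a ^ (-(1 / 8) : ℝ)) ^ n :=
      iF.abs.mul_const _
    refine ⟨iG.mono' (mF.mul mc).aestronglyMeasurable (Eventually.of_forall fun x => ?_), ?_⟩
    · rw [Real.norm_eq_abs, abs_mul]
      exact mul_le_mul_of_nonneg_left (bc x) (abs_nonneg _)
    have e1 : ∀ ω, ∏ i, sm φ a (f i) ω =
        ∫ x : Fin n → ℂ, (∏ i, f i (x i)) * ∏ i, φ a (x i) ω := by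
      intro ω
      simp only [sm, ← Finset.prod_mul_distrib]
      exact (integral_fintype_prod_volume_eq_prod fun i x => f i x * φ a x ω).symm
    have iH : Integrable (Function.uncurry fun (x : Fin n → ℂ) (ω : Ω) =>
        (∏ i, f i (x i)) * ∏ i, φ a (x i) ω) ((volume : Measure (Fin n → ℂ)).prod μ) := by
      refine (iG.comp_fst μ).mono' ((mF.comp measurable_fst).mul mP).aestronglyMeasurable
        (Eventually.of_forall fun p => ?_)
      show ‖(∏ i, f i (p.1 i)) * ∏ i, φ a (p.1 i) p.2‖ ≤ _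
      rw [Real.norm_eq_abs, abs_mul]
      exact mul_le_mul_of_nonneg_left (bφ n p.1 p.2) (abs_nonneg _)
    simp only [e1]
    rw [← integral_integral_swap iH]
    simp only [integral_const_mul, cr]

section

open Sp Finset

variable {μ : Measure Ω} {φ : ℝ → ℂ → Ω → ℝ}

theorem sm_sum (fub : FUB) (hF : Fd μ φ) {a : ℝ} (ha : 0 < a) {ι : Type} [DecidableEq ι]
    [MeasurableSpace ι] [MeasurableSingletonClass ι] (W : Finset ι) {b : ℂ → ι} (hb : Measurable b)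
    {z ε g} (hg : Tf z ε g) (k : ∀ x, g x ≠ 0 → b x ∈ W) :
    (∀ ω, sm φ a g ω = ∑ w : W, sm φ a (pc g {y | b y = w}) ω) ∧
      ∫ x, |g x| = ∑ w : W, ∫ x, |pc g {y | b y = w} x| := by
  have t : ∀ w : W, Tf z ε (pc g {y | b y = w}) := fun w =>
    pc_tf hg (hb (measurableSet_singleton w.1)) fun x _ => hg.sup x
  have f := fun w => (fub Ω μ φ hF a ha).1 z ε _ (t w)
  refine ⟨fun ω => ?_, ?_⟩
  · unfold sm
    rw [← integral_finset_sum _ fun w _ => (f w).2.2.1 ω]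
    refine integral_congr_ae (ae_of_all _ fun x => ?_)
    exact (sum_pc W b g k (fun t => t * φ a x ω) (zero_mul _) x).symm
  · rw [← integral_finset_sum _ fun w _ => (f w).2.1.abs]
    exact integral_congr_ae (ae_of_all _ fun x => (sum_pc W b g k _ abs_zero x).symm)

theorem int_prod (fub : FUB) (hF : Fd μ φ) {a : ℝ} (ha : 0 < a) {n : ℕ} {z ε}
    {f : Fin n → ℂ → ℝ} (hf : ∀ i, Tf z ε (f i)) :
    Integrable (fun ω => ∏ i, sm φ a (f i) ω) μ := by
  have := hF.prob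
  have k := fun i => (fub Ω μ φ hF a ha).1 z ε _ (hf i)
  refine Integrable.of_bound (Finset.measurable_prod _ fun i _ => (k i).1).aestronglyMeasurable
    (∏ i, a ^ (-(1 / 8) : ℝ) * ∫ x, |f i x|) (ae_of_all _ fun ω => ?_)
  rw [Real.norm_eq_abs, abs_prod]
  exact prod_le_prod (fun _ _ => abs_nonneg _) fun i _ => (k i).2.2.2.1 ω

theorem int_pow (fub : FUB) (hF : Fd μ φ) {a : ℝ} (ha : 0 < a) (n : ℕ) {z ε} {g : ℂ → ℝ}
    (hg : Tf z ε g) : Integrable (fun ω => sm φ a g ω ^ n) μ := by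
  simpa using int_prod fub hF ha (n := n) (f := fun _ => g) fun _ => hg

theorem one (fub : FUB) (hF : Fd μ φ) {k : ℕ} {c : ℝ} (hc : 0 ≤ c)
    (P : ∀ (W : Type) [Fintype W] [DecidableEq W] (X : W → ℝ), (∑ w, X w) ^ (2 * (k + 1)) ≤
      2 * (∑ w : Fin (2 * (k + 1)) → W, if Function.Injective w then ∏ i, X (w i) else 0) +
      c * (Fintype.card W : ℝ) ^ k * ∑ w, X w ^ (2 * (k + 1)))
    {a ε h K B : ℝ} (ha : 0 < a) (h0 : 0 < h) (K0 : 0 ≤ K) {z g} (hg : Tf z ε g)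
    (sep : ∀ x : Fin (2 * (k + 1)) → ℂ, (∀ i, g (x i) ≠ 0) →
      (Function.Injective fun i => bx h (x i)) → |cr μ φ a x| ≤ K)
    (hB : ∀ z' g', Tf z' (2 * h) g' → ∫ ω, sm φ a g' ω ^ (2 * (k + 1)) ∂μ ≤ B) :
    ∫ ω, sm φ a g ω ^ (2 * (k + 1)) ∂μ ≤ 2 * (K * (∫ x, |g x|) ^ (2 * (k + 1))) +
      c * ((bxs h z ε).card : ℝ) ^ (k + 1) * B := by
  set n := 2 * (k + 1)
  set W := bxs h z ε
  obtain ⟨s1, s2⟩ := sm_sum fub hF ha W (bx_meas h) hg fun x e => mem_bxs h0 (hg.sup x e)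
  set p : W → ℂ → ℝ := fun w => pc g {y | bx h y = w}
  have ms : ∀ w : W, MeasurableSet {y | bx h y = w} := fun w =>
    bx_meas h (measurableSet_singleton w.1)
  have t : ∀ w : W, Tf z ε (p w) := fun w => pc_tf hg (ms w) fun x _ => hg.sup x
  have t' : ∀ w : W, Tf ⟨h * w.1.1, h * w.1.2⟩ (2 * h) (p w) := fun w =>
    pc_tf hg (ms w) fun x e _ => by
      have := bx_ball h0 x
      rwa [show bx h x = w from e] at this
  have i1 : ∀ w : Fin n → W, Integrable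
      (fun ω => if Function.Injective w then ∏ i, sm φ a (p (w i)) ω else 0) μ := fun w => by
    split_ifs
    · exact int_prod fub hF ha fun i => t (w i)
    · exact integrable_zero _ _ _
  have i2 := fun w => int_pow fub hF ha n (t w)
  have j1 := integrable_finset_sum univ fun w _ => i1 w
  have j2 := integrable_finset_sum univ fun w _ => i2 w
  refine (integral_mono (int_pow fub hF ha n hg) ((j1.const_mul 2).add (j2.const_mul
    (c * (Fintype.card W : ℝ) ^ k))) fun ω => ?_).trans ?_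
  · have := P W fun w => sm φ a (p w) ω
    rw [← s1 ω] at this
    exact this
  simp only [Pi.add_apply]
  rw [integral_add (j1.const_mul 2) (j2.const_mul _), integral_const_mul, integral_const_mul,
    integral_finset_sum _ fun w _ => i1 w, integral_finset_sum _ fun w _ => i2 w]
  refine add_le_add (mul_le_mul_of_nonneg_left ?_ zero_le_two) ?_
  · have e : (∫ x, |g x|) ^ n = ∑ w : Fin n → W, ∏ i, ∫ x, |p (w i) x| := by
      rw [s2, ← Fintype.piFinset_univ,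
        ← prod_univ_sum (fun _ : Fin n => univ) (fun _ w => ∫ x, |p w x|), prod_const, card_univ,
        Fintype.card_fin]
    rw [e, mul_sum]
    refine sum_le_sum fun w _ => ?_
    split_ifs with hw
    · obtain ⟨u1, u2⟩ := ((fub Ω μ φ hF a ha).2 n).2 z ε _ fun i => t (w i)
      rw [u2, ← integral_fintype_prod_volume_eq_prod (fun i x => |p (w i) x|), ← integral_const_mul]
      refine integral_mono u1 ((Integrable.fintype_prod fun i =>
        ((fub Ω μ φ hF a ha).1 z ε _ (t (w i))).2.1.abs).const_mul K) fun x => ?_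
      by_cases e : ∀ i, p (w i) (x i) ≠ 0
      · refine (le_abs_self _).trans ?_
        rw [abs_mul, abs_prod, mul_comm]
        refine mul_le_mul_of_nonneg_right (sep x (fun i => (pc_ne (e i)).2) fun i j e' => hw ?_)
          (prod_nonneg fun _ _ => abs_nonneg _)
        exact Subtype.ext (((pc_ne (e i)).1.symm.trans e').trans (pc_ne (e j)).1)
      · push Not at e
        obtain ⟨i, e⟩ := e
        show (∏ i, p (w i) (x i)) * _ ≤ K * ∏ i, |p (w i) (x i)|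
        rw [prod_eq_zero (mem_univ i) e, zero_mul]
        positivity
    · rw [integral_zero]
      exact mul_nonneg K0 (prod_nonneg fun _ _ => integral_nonneg fun _ => abs_nonneg _)
  · rw [Fintype.card_coe, pow_succ, ← mul_assoc, mul_assoc _ _ B]
    refine mul_le_mul_of_nonneg_left ((sum_le_sum fun w _ => hB _ _ (t' w)).trans ?_) (by positivity)
    rw [sum_const, card_univ, Fintype.card_coe, nsmul_eq_mul]

end

open Sp Finset in
theorem step (dl : DL) (fub : FUB) : STEP := by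
  intro n ⟨k', hk⟩ h2
  obtain ⟨k, rfl⟩ : ∃ k, n = 2 * (k + 1) := ⟨k' - 1, by omega⟩
  obtain ⟨c, hc, P⟩ := pw dl k
  set n := 2 * (k + 1) with hn
  refine ⟨4 ^ n * (c * 4 ^ n), by positivity, fun Ω _ μ φ hF δ d0 d1 => ?_⟩
  obtain ⟨K, T, K0, T0, hs⟩ := hF.sep n ⟨k + 1, by omega⟩ (by omega) δ d0
  refine ⟨4 ^ n * (2 * K), T, by positivity, T0, fun a ε B z g ha hT hg B0 hB => ?_⟩
  have e0 : 0 < ε := lt_of_lt_of_le (by positivity) hT
  have h0 : 0 < δ * ε := by positivity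
  let b : ℂ → ℤ × ℤ := fun x => ((bx (δ * ε) x).1 % 2, (bx (δ * ε) x).2 % 2)
  have hb : Measurable b := (measurable_from_top (f := fun u : ℤ × ℤ => (u.1 % 2, u.2 % 2))).comp
    ((bx_meas _).mono le_rfl (by
      intro s _
      exact (Set.to_countable s).measurableSet))
  let W : Finset (ℤ × ℤ) := Icc 0 1 ×ˢ Icc 0 1
  have cW : Fintype.card W = 4 := by rw [Fintype.card_coe]; rfl
  obtain ⟨s1, -⟩ := sm_sum fub hF ha W hb hg fun x _ => by
    simp only [W, b, mem_product, mem_Icc]; omega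
  have t : ∀ w : W, Tf z ε (pc g {y | b y = w}) := fun w =>
    pc_tf hg (hb (measurableSet_singleton w.1)) fun x _ => hg.sup x
  have ev : Even n := ⟨k + 1, by omega⟩
  set M := 2 * (K * (ε ^ (-(1 / 8) : ℝ) * ∫ x, |g x|) ^ n) + c * 4 ^ n * δ⁻¹ ^ n * B
  have o : ∀ w : W, ∫ ω, sm φ a (pc g {y | b y = w}) ω ^ n ∂μ ≤ M := fun w => by
    refine (one fub hF hc P (K := K * (ε ^ (-(1 / 8) : ℝ)) ^ n) ha h0 (by positivity) (t w)
      (fun x hx hi => hs a ε z x ha hT (fun i => (t w).sup _ (hx i)) fun i j ij => ?_)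
      (by simpa only [← mul_assoc] using hB)).trans (add_le_add ?_ ?_)
    · have e := ((pc_ne (hx i)).1.trans (pc_ne (hx j)).1.symm : b (x i) = b (x j))
      have d : bx (δ * ε) (x i) ≠ bx (δ * ε) (x j) := fun e => ij (hi e)
      simp only [b, bx, Prod.mk.injEq, ne_eq, not_and_or] at e d
      rcases d with d | d
      · exact (far h0 e.1 d).trans (by rw [← Complex.sub_re]; exact Complex.abs_re_le_norm _)
      · exact (far h0 e.2 d).trans (by rw [← Complex.sub_im]; exact Complex.abs_im_le_norm _)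
    · rw [mul_pow, mul_assoc]
      have : ∫ x, |pc g {y | b y = w} x| ≤ ∫ x, |g x| :=
        integral_mono ((fub Ω μ φ hF a ha).1 z ε _ (t w)).2.1.abs
          ((fub Ω μ φ hF a ha).1 z ε _ hg).2.1.abs fun x => pc_abs _ _ x
      have p0 : 0 ≤ ∫ x, |pc g {y | b y = w} x| := integral_nonneg fun _ => abs_nonneg _
      gcongr
    · have c1 := card_bxs h0 e0.le z
      have c2 : 2 * ε / (δ * ε) + 2 ≤ 4 * δ⁻¹ := by
        have : 1 ≤ δ⁻¹ := one_le_inv_iff₀.2 ⟨d0, d1⟩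
        rw [show 2 * ε / (δ * ε) = 2 * δ⁻¹ by field_simp]
        linarith
      rw [mul_assoc c (4 ^ n), ← mul_pow, hn, pow_mul]
      gcongr
      exact c1.trans (by gcongr)
  have i2 := fun w => int_pow fub hF ha n (t w)
  have M0 : 0 ≤ M := by
    have : 0 ≤ ∫ x, |g x| := integral_nonneg fun _ => abs_nonneg _
    positivity
  calc ∫ ω, sm φ a g ω ^ n ∂μ
      ≤ ∫ ω, (4 : ℝ) ^ (2 * k + 1) * ∑ w : W, sm φ a (pc g {y | b y = w}) ω ^ n ∂μ := by
        refine integral_mono (int_pow fub hF ha n hg)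
          ((integrable_finset_sum univ fun w _ => i2 w).const_mul _) fun ω => ?_
        show sm φ a g ω ^ n ≤ _
        rw [s1 ω, ← ev.pow_abs]
        refine (pow_le_pow_left₀ (abs_nonneg _) (abs_sum_le_sum_abs _ _) n).trans ?_
        have := pow_sum_le_card_mul_sum_pow (s := univ)
          (f := fun w : W => |sm φ a (pc g {y | b y = w}) ω|) (fun _ _ => abs_nonneg _) (2 * k + 1)
        rw [card_univ, cW, show 2 * k + 1 + 1 = n by omega] at this
        simpa only [ev.pow_abs, Nat.cast_ofNat] using this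
    _ ≤ 4 ^ (2 * k + 1) * (4 * M) := by
        rw [integral_const_mul, integral_finset_sum _ fun w _ => i2 w]
        refine mul_le_mul_of_nonneg_left ((sum_le_sum fun w _ => o w).trans ?_) (by positivity)
        rw [sum_const, card_univ, cW, nsmul_eq_mul, Nat.cast_ofNat]
    _ = _ := by
        rw [← mul_assoc, ← pow_succ, show 2 * k + 1 + 1 = n by omega]
        ring

theorem mom (fub : FUB) (st : STEP) : MOM := by
  intro Ω _ μ φ hF n hn
  haveI := hF.prob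
  rcases Nat.eq_zero_or_pos n with h0 | h0
  · subst h0
    exact ⟨1, zero_le_one, fun a _ ε _ z g _ => by simp⟩
  have h2 : 2 ≤ n := by
    obtain ⟨k, rfl⟩ := hn
    omega
  obtain ⟨c, hc, hst⟩ := st n hn h2
  obtain ⟨δ, hδ, hδ4, hcδ⟩ := mom_delta c n h0.ne'
  obtain ⟨K, T, hK, hT, hs⟩ := hst Ω μ φ hF δ hδ (by linarith)
  have hT8 : 0 ≤ T ^ (1 / 8 : ℝ) := Real.rpow_nonneg hT.le _
  set A : ℝ := 2 * (K * 4 ^ n) + (4 * T ^ (1 / 8 : ℝ)) ^ n with hA
  have hA1 : 0 ≤ K * 4 ^ n := by positivity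
  have hA2 : 0 ≤ (4 * T ^ (1 / 8 : ℝ)) ^ n := by positivity
  have hA0 : 0 ≤ A := by positivity
  refine ⟨A, hA0, fun a ha => ?_⟩
  obtain ⟨hf, -⟩ := fub Ω μ φ hF a ha
  have base : ∀ ε > (0 : ℝ), ε ≤ T * a → ∀ z g, Tf z ε g →
      ∫ ω, sm φ a g ω ^ n ∂μ ≤ A * (ε ^ (15 / 8 : ℝ)) ^ n := by
    intro ε hε hle z g hg
    obtain ⟨-, -, -, hb, hi⟩ := hf z ε g hg
    have hi := hi hε.le
    have h1 : a ^ (-(1 / 8) : ℝ) ≤ T ^ (1 / 8 : ℝ) * ε ^ (-(1 / 8) : ℝ) := by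
      have h3 : ε / T ≤ a := by
        rw [div_le_iff₀ hT]
        linarith
      have h4 := Real.rpow_le_rpow_of_nonpos (div_pos hε hT) h3 (show (-(1 / 8) : ℝ) ≤ 0 by norm_num)
      refine h4.trans (le_of_eq ?_)
      rw [Real.div_rpow hε.le hT.le, Real.rpow_neg hT.le, div_inv_eq_mul, mul_comm]
    have h5 : ∀ ω, |sm φ a g ω| ≤ 4 * T ^ (1 / 8 : ℝ) * ε ^ (15 / 8 : ℝ) := by
      intro ω
      refine (hb ω).trans ?_
      calc a ^ (-(1 / 8) : ℝ) * ∫ x, |g x|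
          ≤ (T ^ (1 / 8 : ℝ) * ε ^ (-(1 / 8) : ℝ)) * (4 * ε ^ 2) :=
            mul_le_mul h1 hi (integral_nonneg fun x => abs_nonneg _) (by positivity)
        _ = T ^ (1 / 8 : ℝ) * (ε ^ (-(1 / 8) : ℝ) * (4 * ε ^ 2)) := by ring
        _ = 4 * T ^ (1 / 8 : ℝ) * ε ^ (15 / 8 : ℝ) := by
            rw [mom_scale hε]
            ring
    have h6 : ∫ ω, sm φ a g ω ^ n ∂μ ≤
        ∫ _ω, (4 * T ^ (1 / 8 : ℝ) * ε ^ (15 / 8 : ℝ)) ^ n ∂μ := by
      refine integral_mono_of_nonneg (Eventually.of_forall fun ω => hn.pow_nonneg _)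
        (integrable_const _) (Eventually.of_forall fun ω => ?_)
      show sm φ a g ω ^ n ≤ _
      rw [← hn.pow_abs]
      exact pow_le_pow_left₀ (abs_nonneg _) (h5 ω) n
    rw [integral_const, probReal_univ, one_smul, mul_pow] at h6
    refine h6.trans (mul_le_mul_of_nonneg_right (by linarith) (by positivity))
  have ind : ∀ k : ℕ, ∀ ε > (0 : ℝ), ε * (2 * δ) ^ k ≤ T * a → ∀ z g, Tf z ε g →
      ∫ ω, sm φ a g ω ^ n ∂μ ≤ A * (ε ^ (15 / 8 : ℝ)) ^ n := by
    intro k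
    induction k with
    | zero =>
      intro ε hε hle
      exact base ε hε (by simpa using hle)
    | succ k ih =>
      intro ε hε hle z g hg
      rcases le_total ε (T * a) with h | h
      · exact base ε hε h z g hg
      have hε' : 0 < 2 * δ * ε := by positivity
      have h1 := hs a ε (A * ((2 * δ * ε) ^ (15 / 8 : ℝ)) ^ n) z g ha h hg (by positivity)
        (fun z' g' hg' => ih (2 * δ * ε) hε' (by
          have : 2 * δ * ε * (2 * δ) ^ k = ε * (2 * δ) ^ (k + 1) := by ring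
          rw [this]
          exact hle) z' g' hg')
      refine h1.trans ?_
      obtain ⟨-, -, -, -, hi⟩ := hf z ε g hg
      have hi := hi hε.le
      have hE : 0 ≤ (ε ^ (15 / 8 : ℝ)) ^ n := by positivity
      have h3 : (ε ^ (-(1 / 8) : ℝ) * ∫ x, |g x|) ^ n ≤ 4 ^ n * (ε ^ (15 / 8 : ℝ)) ^ n := by
        rw [← mul_pow, ← mom_scale hε]
        exact pow_le_pow_left₀ (mul_nonneg (by positivity) (integral_nonneg fun x => abs_nonneg _))
          (mul_le_mul_of_nonneg_left hi (by positivity)) n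
      have h4 : c * δ⁻¹ ^ n * (A * ((2 * δ * ε) ^ (15 / 8 : ℝ)) ^ n) ≤
          1 / 2 * (A * (ε ^ (15 / 8 : ℝ)) ^ n) := by
        rw [Real.mul_rpow (by positivity) hε.le, mul_pow]
        calc c * δ⁻¹ ^ n * (A * (((2 * δ) ^ (15 / 8 : ℝ)) ^ n * (ε ^ (15 / 8 : ℝ)) ^ n))
            = (c * δ⁻¹ ^ n * ((2 * δ) ^ (15 / 8 : ℝ)) ^ n) * (A * (ε ^ (15 / 8 : ℝ)) ^ n) := by ring
          _ ≤ 1 / 2 * (A * (ε ^ (15 / 8 : ℝ)) ^ n) :=
            mul_le_mul_of_nonneg_right hcδ (mul_nonneg hA0 hE)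
      have h5 := mul_le_mul_of_nonneg_left h3 hK
      have h6 : K * 4 ^ n * (ε ^ (15 / 8 : ℝ)) ^ n ≤ 1 / 2 * A * (ε ^ (15 / 8 : ℝ)) ^ n :=
        mul_le_mul_of_nonneg_right (by linarith) hE
      nlinarith
  intro ε hε z g hg
  obtain ⟨k, hk⟩ := exists_pow_lt_of_lt_one (div_pos (mul_pos hT ha) hε)
    (show 2 * δ < 1 by linarith)
  refine ind k ε hε ?_ z g hg
  rw [lt_div_iff₀ hε] at hk
  linarith

open Sml in
theorem sml (fub : FUB) (st : STEP) (mo : MOM) : SML := by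
  intro Ω _ μ φ hF n R hR η hη
  haveI := hF.prob
  obtain ⟨A, hA, hAm⟩ := mo Ω μ φ hF (2 * n) (even_two_mul n)
  obtain ⟨A2, hA2, hA2m⟩ := mo Ω μ φ hF 2 even_two
  obtain ⟨c, hc, hst⟩ := st 2 even_two le_rfl
  set M : ℝ := A * (R ^ (15 / 8 : ℝ)) ^ (2 * n) with hM
  have hM0 : 0 ≤ M := by positivity
  -- the Young parameter
  obtain ⟨l, hl, hl2⟩ : ∃ l : ℝ, 0 < l ∧ n * l * (1 + n * (M + M)) ≤ η / 2 := by
    refine ⟨η / 2 / (n * (1 + n * (M + M)) + 1), by positivity, ?_⟩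
    have h0 : (0 : ℝ) < n * (1 + n * (M + M)) + 1 := by positivity
    have e : n * (η / 2 / (n * (1 + n * (M + M)) + 1)) * (1 + n * (M + M)) =
        η / 2 * ((n * (1 + n * (M + M))) / (n * (1 + n * (M + M)) + 1)) := by
      field_simp
    rw [e]
    refine mul_le_of_le_one_right (by positivity) ?_
    rw [div_le_one h0]; linarith
  obtain ⟨ρ, hρ, hρ2⟩ : ∃ ρ : ℝ, 0 < ρ ∧ l⁻¹ * (n * (ρ + ρ)) ≤ η / 2 := by
    refine ⟨l * η / 4 / (n + 1), by positivity, ?_⟩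
    have h0 : (0 : ℝ) < n + 1 := by positivity
    have e : l⁻¹ * (n * (l * η / 4 / (n + 1) + l * η / 4 / (n + 1))) = η / 2 * (n / (n + 1)) := by
      field_simp; ring
    rw [e]
    refine mul_le_of_le_one_right (by positivity) ?_
    rw [div_le_one h0]; linarith
  have small : ∀ X : ℝ, 0 ≤ X → ∃ s : ℝ, 0 < s ∧ s ≤ 1 ∧ X * s ≤ ρ := fun X hX => by
    refine ⟨min 1 (ρ / (X + 1)), by positivity, min_le_left _ _, ?_⟩
    have h0 : 0 < X + 1 := by linarith
    calc X * min 1 (ρ / (X + 1)) ≤ (X + 1) * (ρ / (X + 1)) :=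
          mul_le_mul (by linarith) (min_le_right _ _) (by positivity) h0.le
      _ = ρ := by field_simp
  obtain ⟨s, hs, hs1, hs2⟩ := small (c * A2 * ((2 * R) ^ (15 / 8 : ℝ)) ^ 2) (by positivity)
  obtain ⟨K, T, hK, hT, hKT⟩ := hst Ω μ φ hF (s ^ 8) (by positivity) (pow_le_one₀ hs.le hs1)
  obtain ⟨θ, hθ, hθ1, hθ2⟩ := small (K * (R ^ (-(1 / 8) : ℝ)) ^ 2) (by positivity)
  refine ⟨θ, hθ, ?_⟩
  have hev : ∀ᶠ a in 𝓝[>] (0 : ℝ), 0 < a ∧ T * a ≤ R := by
    have h1 : Set.Ioo (0 : ℝ) (R / T) ∈ 𝓝[>] (0 : ℝ) := Ioo_mem_nhdsGT (by positivity)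
    filter_upwards [h1] with a ha
    refine ⟨ha.1, ?_⟩
    have := ha.2
    rw [lt_div_iff₀ hT] at this
    linarith
  filter_upwards [hev] with a ⟨ha, haT⟩ f f' hf hf' hd hθd
  obtain ⟨F1, -⟩ := fub Ω μ φ hF a ha
  have bm : ∀ z ε g, Tf z ε g → BM (sm φ a g) := fun z ε g hg =>
    ⟨(F1 z ε g hg).1, _, (F1 z ε g hg).2.2.2.1⟩
  have add : ∀ i ω, sm φ a (f i) ω - sm φ a (f' i) ω = sm φ a (f i - f' i) ω := fun i ω => by
    unfold sm
    rw [← integral_sub ((F1 0 R _ (hf i)).2.2.1 ω) ((F1 0 R _ (hf' i)).2.2.1 ω)]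
    congr 1; funext x; simp only [Pi.sub_apply]; ring
  -- second moments of the differences
  have hD : ∀ i, ∫ ω, sm φ a (f i - f' i) ω ^ 2 ∂μ ≤ ρ + ρ := fun i => by
    have h := hKT a R (A2 * ((2 * s ^ 8 * R) ^ (15 / 8 : ℝ)) ^ 2) 0 _ ha haT (hd i) (by positivity)
      (fun z' g' hg' => hA2m a ha _ (by positivity) z' g' hg')
    refine h.trans (add_le_add ?_ ?_)
    · have h0 : 0 ≤ ∫ x, |(f i - f' i) x| := integral_nonneg fun x => abs_nonneg _
      have h1 : ∫ x, |(f i - f' i) x| ≤ θ := hθd i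
      have h2 : (∫ x, |(f i - f' i) x|) ^ 2 ≤ θ := by nlinarith
      rw [mul_pow, ← mul_assoc]
      exact (mul_le_mul_of_nonneg_left h2 (by positivity)).trans hθ2
    · have e1 : (2 * s ^ 8 * R) ^ (15 / 8 : ℝ) = (2 * R) ^ (15 / 8 : ℝ) * s ^ 15 := by
        rw [show 2 * s ^ 8 * R = (2 * R) * s ^ 8 by ring,
          Real.mul_rpow (by positivity) (by positivity), ← Real.rpow_natCast s 8,
          ← Real.rpow_mul hs.le, ← Real.rpow_natCast s 15]
        norm_num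
      rw [e1]
      have e2 : c * (s ^ 8)⁻¹ ^ 2 * (A2 * ((2 * R) ^ (15 / 8 : ℝ) * s ^ 15) ^ 2) =
          c * A2 * ((2 * R) ^ (15 / 8 : ℝ)) ^ 2 * s ^ 14 := by
        field_simp
      rw [e2]
      refine le_trans (mul_le_mul_of_nonneg_left ?_ (by positivity)) hs2
      exact pow_le_of_le_one hs.le hs1 (by norm_num)
  have i1 := (BM.prod fun i => bm 0 R _ (hf i)).int μ
  have i2 := (BM.prod fun i => bm 0 R _ (hf' i)).int μ
  have i3 : ∀ i, Integrable (fun ω => sm φ a (f i - f' i) ω ^ 2) μ := fun i =>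
    ((bm 0 R _ (hd i)).pow 2).int μ
  have i4 : ∀ i, Integrable (fun ω => sm φ a (f i) ω ^ (2 * n)) μ := fun i =>
    ((bm 0 R _ (hf i)).pow _).int μ
  have i5 : ∀ i, Integrable (fun ω => sm φ a (f' i) ω ^ (2 * n)) μ := fun i =>
    ((bm 0 R _ (hf' i)).pow _).int μ
  have j3 : Integrable (fun ω => ∑ i, sm φ a (f i - f' i) ω ^ 2) μ :=
    integrable_finset_sum _ fun i _ => i3 i
  have i45 : ∀ i, Integrable
      (fun ω => sm φ a (f i) ω ^ (2 * n) + sm φ a (f' i) ω ^ (2 * n)) μ := fun i =>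
    (i4 i).add (i5 i)
  have j4 : Integrable
      (fun ω => ∑ i, (sm φ a (f i) ω ^ (2 * n) + sm φ a (f' i) ω ^ (2 * n))) μ :=
    integrable_finset_sum _ fun i _ => i45 i
  have j5 : Integrable
      (fun ω => 1 + ∑ i, (sm φ a (f i) ω ^ (2 * n) + sm φ a (f' i) ω ^ (2 * n))) μ :=
    (integrable_const 1).add j4
  rw [← integral_sub i1 i2]
  refine abs_integral_le_integral_abs.trans ?_
  have hle : ∫ ω, |∏ i, sm φ a (f i) ω - ∏ i, sm φ a (f' i) ω| ∂μ ≤
      ∫ ω, (l⁻¹ * ∑ i, sm φ a (f i - f' i) ω ^ 2 +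
        n * l * (1 + ∑ i, (sm φ a (f i) ω ^ (2 * n) + sm φ a (f' i) ω ^ (2 * n)))) ∂μ := by
    refine integral_mono (i1.sub i2).abs ((j3.const_mul _).add (j5.const_mul _)) fun ω => ?_
    have := pw n (fun i => sm φ a (f i) ω) (fun i => sm φ a (f' i) ω) l hl
    simp only [add] at this
    exact this
  refine hle.trans ?_
  rw [integral_add (j3.const_mul _) (j5.const_mul _), integral_const_mul, integral_const_mul,
    integral_add (integrable_const 1) j4, integral_finset_sum _ fun i _ => i3 i,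
    integral_finset_sum _ fun i _ => i45 i]
  have k1 : ∑ i, ∫ ω, sm φ a (f i - f' i) ω ^ 2 ∂μ ≤ n * (ρ + ρ) := by
    calc _ ≤ ∑ _i : Fin n, (ρ + ρ) := Finset.sum_le_sum fun i _ => hD i
      _ = _ := by simp; ring
  have k2 : ∑ i, ∫ ω, (sm φ a (f i) ω ^ (2 * n) + sm φ a (f' i) ω ^ (2 * n)) ∂μ ≤
      n * (M + M) := by
    calc _ ≤ ∑ _i : Fin n, (M + M) := Finset.sum_le_sum fun i _ => by
          rw [integral_add (i4 i) (i5 i)]
          exact add_le_add (hAm a ha R hR 0 _ (hf i)) (hAm a ha R hR 0 _ (hf' i))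
      _ = _ := by simp; ring
  have k3 : ∫ _ω, (1 : ℝ) ∂μ = 1 := by simp
  rw [k3]
  have k4 := mul_le_mul_of_nonneg_left k1 (inv_nonneg.2 hl.le)
  have k5 : n * l * (1 + ∑ i, ∫ ω, (sm φ a (f i) ω ^ (2 * n) + sm φ a (f' i) ω ^ (2 * n)) ∂μ) ≤
      n * l * (1 + n * (M + M)) := mul_le_mul_of_nonneg_left (by linarith) (by positivity)
  linarith

open Nr in
theorem near (dl : DL) (fub : FUB) (mo : MOM) : NEAR := by
  intro Ω _ μ φ F n R hR
  haveI := F.prob
  obtain ⟨A, A0, hA⟩ := mo Ω μ φ F (2 * (n + 1)) (even_two_mul _)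
  obtain ⟨c, c0, hc⟩ := dl n
  have bd : ∀ a > (0 : ℝ), ∀ {z ε g}, Tf z ε g → Bd (sm φ a g) := fun a ha z ε g h =>
    ⟨((fub Ω μ φ F a ha).1 z ε g h).1, _, ((fub Ω μ φ F a ha).1 z ε g h).2.2.2.1⟩
  set B := (n : ℝ) ^ n * (n * (A * (R ^ (15 / 8 : ℝ)) ^ (2 * (n + 1)))) with hB
  have B0 : 0 ≤ B := by positivity
  have i1 : ∀ a > (0 : ℝ), ∀ f : Fin n → ℂ → ℝ, (∀ i, Tf 0 R (f i)) →
      Integrable (fun ω => (n : ℝ) ^ n * ∑ i, sm φ a (f i) ω ^ (2 * (n + 1))) μ ∧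
      ∫ ω, (n : ℝ) ^ n * ∑ i, sm φ a (f i) ω ^ (2 * (n + 1)) ∂μ ≤ B := fun a ha f hf => by
    have k := fun i => ((bd a ha (hf i)).pow (2 * (n + 1))).int μ
    refine ⟨(integrable_finset_sum _ fun i _ => k i).const_mul _, ?_⟩
    rw [integral_const_mul, integral_finset_sum _ fun i _ => k i]
    refine mul_le_mul_of_nonneg_left ((Finset.sum_le_sum fun i _ => hA a ha R hR 0 _ (hf i)).trans_eq ?_)
      (by positivity)
    simp
  refine ⟨⟨1 + B, fun a ha f hf => ?_⟩, fun η hη => ?_⟩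
  · obtain ⟨k1, k2⟩ := i1 a ha f hf
    rw [← Real.norm_eq_abs]
    refine (norm_integral_le_of_norm_le ((integrable_const (1 : ℝ)).add k1)
      (ae_of_all _ fun ω => ?_)).trans ?_
    · exact p1 fun i => sm φ a (f i) ω
    simp only [Pi.add_apply]
    rw [integral_add (integrable_const _) k1]
    simpa using k2
  set K := c * (1 + 2 ^ n * (B + A)) with hK
  have K0 : 0 ≤ K := by positivity
  obtain ⟨θ, θ0, θ1, hθ⟩ : ∃ θ : ℝ, 0 < θ ∧ θ ≤ 1 ∧ K * θ ^ 2 ≤ η := by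
    refine ⟨min 1 (η / (K + 1)), by positivity, min_le_left _ _, ?_⟩
    have a := min_le_left 1 (η / (K + 1))
    have b := min_le_right 1 (η / (K + 1))
    have p : 0 < min 1 (η / (K + 1)) := by positivity
    rw [le_div_iff₀ (by positivity)] at b
    nlinarith [mul_nonneg K0 p.le, mul_le_mul_of_nonneg_left a (mul_nonneg K0 p.le)]
  have ev : ∀ᶠ δ in 𝓝 (0 : ℝ), (θ ^ 2)⁻¹ * (n * (8 * (2 * R + 3) ^ 2)) * δ ≤ 1 := by
    have : ContinuousAt (fun δ : ℝ => (θ ^ 2)⁻¹ * (n * (8 * (2 * R + 3) ^ 2)) * δ) 0 := by fun_prop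
    exact this.eventually (eventually_le_nhds (by simp))
  filter_upwards [self_mem_nhdsWithin, nhdsWithin_le_nhds ev,
    nhdsWithin_le_nhds (eventually_le_nhds (show (0 : ℝ) < 1 / 2 by norm_num))] with δ hδ h2 h1 a ha f hf
  have hδ : 0 < δ := hδ
  obtain ⟨k1, k2⟩ := i1 a ha f hf
  obtain ⟨f1, f2⟩ := fub Ω μ φ F a ha
  let y : Ω → Fin n → bs ⌈R / δ⌉₊ → ℝ := fun ω i w => sm φ a (pc δ (f i) w) ω
  have e1 : ∀ ω i, ∑ w, y ω i w = sm φ a (f i) ω := fun ω i => by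
    unfold y sm
    rw [← integral_finset_sum _ fun w _ => (f1 0 R _ (pc1 (hf i) δ _)).2.2.1 ω]
    simp only [← Finset.sum_mul, sum1 (hf i) hδ]
  have ms : MeasurableSet {x : Fin n → ℂ | Function.Injective fun i => bx δ (x i)} :=
    (measurable_pi_lambda (fun (x : Fin n → ℂ) i => bx δ (x i)) fun i =>
      (mbx δ).comp (measurable_pi_apply i))
      (Set.to_countable {w : Fin n → ℤ × ℤ | Function.Injective w}).measurableSet
  have j1 : ∀ w : Fin n → bs ⌈R / δ⌉₊,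
      Integrable (fun ω => if Function.Injective w then ∏ i, y ω i (w i) else 0) μ := fun w => by
    split_ifs
    · exact (Bd.prod fun i => bd a ha (pc1 (hf i) δ _)).int μ
    · exact integrable_zero _ _ _
  have j2 : ∀ w : Fin n → bs ⌈R / δ⌉₊, Integrable fun x : Fin n → ℂ =>
      if Function.Injective w then (∏ i, pc δ (f i) (w i) (x i)) * cr μ φ a x else 0 := fun w => by
    split_ifs
    · exact ((f2 n).2 0 R _ fun i => pc1 (hf i) δ _).1
    · exact integrable_zero _ _ _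
  have e2 : ∫ x in {x : Fin n → ℂ | Function.Injective fun i => bx δ (x i)},
      (∏ i, f i (x i)) * cr μ φ a x = ∫ ω, (∑ w : Fin n → bs ⌈R / δ⌉₊,
        if Function.Injective w then ∏ i, y ω i (w i) else 0) ∂μ := by
    rw [integral_finset_sum _ fun w _ => j1 w, ← integral_indicator ms]
    have e : ∀ w : Fin n → bs ⌈R / δ⌉₊,
        ∫ ω, (if Function.Injective w then ∏ i, y ω i (w i) else 0) ∂μ = ∫ x : Fin n → ℂ,
        if Function.Injective w then (∏ i, pc δ (f i) (w i) (x i)) * cr μ φ a x else 0 := fun w => by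
      split_ifs
      · exact ((f2 n).2 0 R _ fun i => pc1 (hf i) δ _).2
      · simp
    simp only [e]
    rw [← integral_finset_sum _ fun w _ => j2 w]
    refine integral_congr_ae (ae_of_all _ fun x => ?_)
    simp only [sum2 hf hδ, Set.indicator_mul_left]
  set q := (θ ^ 2)⁻¹ ^ (n + 1) * ((n : ℝ) * Fintype.card (bs ⌈R / δ⌉₊)) ^ n with hq
  have q0 : 0 ≤ q := by positivity
  have k := fun p : Fin n × bs ⌈R / δ⌉₊ => ((bd a ha (pc1 (hf p.1) δ p.2)).pow (2 * (n + 1))).int μ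
  have k3 : Integrable (fun ω => q * ∑ p : Fin n × bs ⌈R / δ⌉₊, y ω p.1 p.2 ^ (2 * (n + 1))) μ :=
    (integrable_finset_sum _ fun p _ => k p).const_mul _
  have k4 : ∫ ω, q * ∑ p : Fin n × bs ⌈R / δ⌉₊, y ω p.1 p.2 ^ (2 * (n + 1)) ∂μ ≤ A := by
    rw [integral_const_mul, integral_finset_sum _ fun p _ => k p]
    refine (mul_le_mul_of_nonneg_left (Finset.sum_le_sum fun p _ =>
      hA a ha (2 * δ) (by positivity) _ _ (pc2 (hf p.1) hδ p.2)) q0).trans ?_
    have s := pow_le_one₀ (n := n + 1) (by positivity) (small (n := n) hR θ0 hδ h1 h2)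
    rw [Finset.sum_const, Finset.card_univ, Fintype.card_prod, Fintype.card_fin, nsmul_eq_mul,
      Nat.cast_mul, pow_mul]
    refine le_trans (le_of_eq ?_) (mul_le_of_le_one_right A0 s)
    rw [hq]; simp only [mul_pow]; ring
  rw [e2, ← integral_sub ((Bd.prod fun i => bd a ha (hf i)).int μ)
    (integrable_finset_sum _ fun w _ => j1 w)]
  have k5 := (k1.add k3).const_mul (2 ^ n)
  rw [← Real.norm_eq_abs]
  refine (norm_integral_le_of_norm_le ((((integrable_const (1 : ℝ)).add k5)).const_mul (c * θ ^ 2))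
    (ae_of_all _ fun ω => ?_)).trans ?_
  · have := p2 c0 (y ω) _ θ θ0 fun t h0 h3 h4 => hc _ (y ω) t θ h0 θ0.le θ1 h3 h4
    simp only [e1] at this
    exact this
  · simp only [Pi.add_apply] at k5 ⊢
    rw [integral_const_mul, integral_add (integrable_const _) k5, integral_const_mul,
      integral_add k1 k3]
    refine le_trans ?_ hθ
    have : c * θ ^ 2 * (1 + 2 ^ n * (B + A)) = K * θ ^ 2 := by rw [hK]; ring
    rw [← this]
    simp only [integral_const, probReal_univ, smul_eq_mul, one_mul]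
    gcongr

theorem mom_all : MOM := mom fub (step dl fub)

theorem sml_all : SML := sml fub (step dl fub) mom_all

theorem near_all : NEAR := near dl fub mom_all

end Vale.Agent.N144.Sf
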